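import Crest.Agent.R062.Pairs
import Crest.Agent.Lib.PT.ListFns2
import Crest.Agent.Lib.PT.Arith

-- ▼ part R062/EndComplete
section

/-!
Row 62: a valid partial matching with sufficiently many free stubs has a simple completion
(greedy choice plus switchings among the new pairs).
-/

set_option autoImplicit false

namespace Crest.Agent.R062.EndComplete

open Crest.Agent.R062.Pairs

/-- the number of pairs meeting `Z` is at most `|Z|` -/
theorem length_le_of_all_hit {d n : ℕ} {P : List (ℕ × ℕ)} (h : Valid d n P) (Z : Finset ℕ)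
    {New : List (ℕ × ℕ)} (hN : List.Sublist New P) (hit : ∀ q ∈ New, q.1 ∈ Z ∨ q.2 ∈ Z) :
    New.length ≤ Z.card := by
  have h1 : New.length ≤ ((stubs New).filter (fun j => decide (j ∈ Z))).length := by
    clear hN
    induction New with
    | nil => simp
    | cons p New ih =>
      have h2 := ih (fun q hq => hit q (List.mem_cons_of_mem _ hq))
      rw [stubs_cons, List.filter_cons, List.filter_cons]
      rcases hit p List.mem_cons_self with h3 | h3
      · by_cases h4 : p.2 ∈ Z <;> simp [h3, h4] <;> omega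
      · by_cases h4 : p.1 ∈ Z <;> simp [h3, h4] <;> omega
  have h2 : (stubs New).Nodup := by
    have : List.Sublist (stubs New) (stubs P) := by
      unfold stubs
      exact hN.flatMap _
    exact (nodup_stubs h).sublist this
  have h3 : ((stubs New).filter (fun j => decide (j ∈ Z))).length ≤ Z.card := by
    rw [← List.toFinset_card_of_nodup (h2.filter _)]
    refine Finset.card_le_card ?_
    intro j hj
    simp at hj
    exact hj.2
  omega

theorem adjN_mono {d : ℕ} {P Q : List (ℕ × ℕ)} (h : ∀ q ∈ P, q ∈ Q) {v w : ℕ}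
    (hA : AdjN d P v w) : AdjN d Q v w := by
  obtain ⟨q, hq, h'⟩ := hA
  exact ⟨q, h q hq, h'⟩

/-- the switching -/
theorem switch {d n : ℕ} (hd : 0 < d) {R : List (ℕ × ℕ)} {a b x y : ℕ}
    (h : Valid d n ((a, b) :: R)) (hx : x ∈ freeF d n ((a, b) :: R))
    (hy : y ∈ freeF d n ((a, b) :: R)) (hxy : x ≠ y)
    (ha : a ∉ zone d ((a, b) :: R) (x / d)) (hb : b ∉ zone d ((a, b) :: R) (y / d))
    (hb' : b ∉ zone d ((a, b) :: R) (x / d)) :
    Valid d n ((y, b) :: (x, a) :: R) := by
  rw [mem_zone hd] at ha hb hb'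
  push Not at ha hb hb'
  rw [mem_freeF, stubs_cons] at hx hy
  simp only [List.mem_cons, not_or] at hx hy
  obtain ⟨hx0, hx1, hx2, hx3⟩ := hx
  obtain ⟨hy0, hy1, hy2, hy3⟩ := hy
  have hV := h
  rw [valid_cons] at h
  obtain ⟨hadm, hR⟩ := h
  obtain ⟨ha0, hb0, hab, hab'⟩ := adm_iff.1 hadm
  have hxR : x ∈ freeF d n R := mem_freeF.2 ⟨hx0, hx3⟩
  have hyR : y ∈ freeF d n R := mem_freeF.2 ⟨hy0, hy3⟩
  have mono : ∀ {v w : ℕ}, AdjN d R v w → AdjN d ((a, b) :: R) v w :=
    fun hA => adjN_mono (fun q hq => List.mem_cons_of_mem _ hq) hA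
  have h1 : Adm d n R (x, a) :=
    adm_of hxR ha0 (Ne.symm ha.1) (fun hA => ha.2 (mono hA))
  have h1V : Valid d n ((x, a) :: R) := valid_cons.2 ⟨h1, hR⟩
  refine valid_cons.2 ⟨?_, h1V⟩
  have hy1' : y ∈ freeF d n ((x, a) :: R) := by
    rw [mem_freeF, stubs_cons]
    simp only [List.mem_cons, not_or]
    exact ⟨hy0, hxy.symm, hy1, hy3⟩
  have hb1' : b ∈ freeF d n ((x, a) :: R) := by
    rw [mem_freeF] at hb0
    rw [mem_freeF, stubs_cons]
    simp only [List.mem_cons, not_or]
    refine ⟨hb0.1, Ne.symm hx2, ?_, hb0.2⟩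
    rintro rfl
    exact hab rfl
  refine adm_of hy1' hb1' (Ne.symm hb.1) ?_
  rintro ⟨q, hq, hA⟩
  rw [List.mem_cons] at hq
  rcases hq with rfl | hq
  · rcases hA with ⟨h3, h4⟩ | ⟨h3, h4⟩
    · exact hab h4
    · exact hb'.1 h3.symm
  · exact hb.2 (mono ⟨q, hq, hA⟩)

/-- the threshold -/
def thr (d : ℕ) : ℕ := 5 * ((d + 1) * d) + 2

theorem exists_completion_aux {d n : ℕ} (hd : 0 < d) (hev : Even (n * d)) {P : List (ℕ × ℕ)}
    (hf : 5 * ((d + 1) * d) < (freeF d n P).card) :
    ∀ (k : ℕ) (New : List (ℕ × ℕ)), Valid d n (New ++ P) →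
      (freeF d n (New ++ P)).card = k →
      ∃ New', Valid d n (New' ++ P) ∧ 2 * (New' ++ P).length = n * d := by
  intro k
  induction k using Nat.strong_induction_on with
  | _ k ih =>
    intro New hV hk
    have hc := card_freeF hV
    rcases Nat.eq_zero_or_pos k with hk0 | hk0
    · refine ⟨New, hV, ?_⟩
      omega
    · have hk2 : 2 ≤ k := by
        obtain ⟨r, hr⟩ := hev
        omega
      by_cases hbig : (d + 1) * d < k
      · obtain ⟨x, hx⟩ : (freeF d n (New ++ P)).Nonempty := by
          rw [← Finset.card_pos]; omega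
        obtain ⟨y, hy⟩ := exists_partner hd hV (by omega) hx
        have hV' : Valid d n (((x, y) :: New) ++ P) := valid_cons.2 ⟨hy, hV⟩
        have hc' := card_freeF hV'
        simp only [List.cons_append, List.length_cons] at hc'
        refine ih (k - 2) (by omega) ((x, y) :: New) hV' ?_
        simp only [List.cons_append]
        omega
      · -- switching
        have hone : 1 < (freeF d n (New ++ P)).card := by omega
        rw [Finset.one_lt_card] at hone
        obtain ⟨x, hx, y, hy, hxy⟩ := hone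
        have hcP := card_freeF (hV.of_append_right)
        have hlen : 2 * ((d + 1) * d) < New.length := by
          rw [List.length_append] at hc
          omega
        have hex : ∃ q ∈ New, ¬ (q.1 ∈ zone d (New ++ P) (x / d) ∪ zone d (New ++ P) (y / d) ∨
            q.2 ∈ zone d (New ++ P) (x / d) ∪ zone d (New ++ P) (y / d)) := by
          by_contra hcon
          push Not at hcon
          have h1 := length_le_of_all_hit hV _ (List.sublist_append_left New P) hcon
          have h2 := Finset.card_union_le (zone d (New ++ P) (x / d)) (zone d (New ++ P) (y / d))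
          have h3 := card_zone_le hd hV (x / d)
          have h4 := card_zone_le hd hV (y / d)
          omega
        obtain ⟨⟨a, b⟩, hq, hqZ⟩ := hex
        obtain ⟨l1, l2, hl⟩ := List.append_of_mem hq
        have hperm : (New ++ P).Perm ((a, b) :: ((l1 ++ l2) ++ P)) := by
          rw [hl]
          have : ((l1 ++ (a, b) :: l2) ++ P) = l1 ++ (a, b) :: (l2 ++ P) := by simp
          rw [this]
          refine List.perm_middle.trans ?_
          simp
        have hfree : freeF d n (New ++ P) = freeF d n ((a, b) :: ((l1 ++ l2) ++ P)) := by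
          ext j
          rw [mem_freeF, mem_freeF, mem_stubs, mem_stubs]
          have : ∀ q, q ∈ New ++ P ↔ q ∈ (a, b) :: ((l1 ++ l2) ++ P) := fun q => hperm.mem_iff
          simp only [this]
        have hzone : ∀ v j, j ∈ zone d (New ++ P) v ↔
            j ∈ zone d ((a, b) :: ((l1 ++ l2) ++ P)) v := by
          intro v j
          rw [mem_zone hd, mem_zone hd]
          unfold AdjN
          have : ∀ q, q ∈ New ++ P ↔ q ∈ (a, b) :: ((l1 ++ l2) ++ P) := fun q => hperm.mem_iff
          simp only [this]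
        rw [Finset.mem_union, Finset.mem_union, hzone, hzone, hzone, hzone] at hqZ
        push Not at hqZ
        have hVa := hV.perm hperm
        rw [hfree] at hx hy
        have hsw := switch hd hVa hx hy hxy hqZ.1.1 hqZ.2.2 hqZ.2.1
        have hV' : Valid d n (((y, b) :: (x, a) :: (l1 ++ l2)) ++ P) := by
          simpa using hsw
        have hc' := card_freeF hV'
        have hlen' : (((y, b) :: (x, a) :: (l1 ++ l2)) ++ P).length = (New ++ P).length + 1 := by
          rw [hl]; simp; omega
        refine ih (k - 2) (by omega) _ hV' ?_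
        omega

/-- a valid partial matching with at least `thr d - 1` free stubs has a completion -/
theorem exists_completion {d n : ℕ} (hd : 0 < d) (hev : Even (n * d)) {P : List (ℕ × ℕ)}
    (hV : Valid d n P) (hf : 5 * ((d + 1) * d) < (freeF d n P).card) :
    ∃ New, Valid d n (New ++ P) ∧ 2 * (New ++ P).length = n * d :=
  exists_completion_aux hd hev hf _ [] (by simpa using hV) rfl

end Crest.Agent.R062.EndComplete
end

-- ▼ part R062/EndAlg
section

/-!
Row 62: the finishing algorithm (greedy until few stubs are left, then exhaustive search) and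
its correctness.
-/

set_option autoImplicit false

namespace Crest.Agent.R062.EndAlg

open Crest.Agent.R062.Pairs Crest.Agent.R062.EndComplete

/-- all pairs of stubs -/
def allPairs (M : ℕ) : List (ℕ × ℕ) :=
  (List.range M).flatMap fun x => (List.range M).map fun y => (x, y)

theorem mem_allPairs {M x y : ℕ} : (x, y) ∈ allPairs M ↔ x < M ∧ y < M := by
  simp [allPairs]

/-- one greedy step -/
def step1 (d n : ℕ) (P : List (ℕ × ℕ)) : List (ℕ × ℕ) :=
  match (allPairs (n * d)).find? (fun p => decide (Adm d n P p)) with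
  | none => P
  | some p => p :: P

/-- one greedy step if there are many free stubs -/
def stepA (d n : ℕ) (P : List (ℕ × ℕ)) : List (ℕ × ℕ) :=
  if 2 * P.length + thr d < n * d then step1 d n P else P

theorem step1_spec {d n : ℕ} {P : List (ℕ × ℕ)} (hV : Valid d n P) (hex : ∃ p, Adm d n P p) :
    ∃ p, step1 d n P = p :: P ∧ Valid d n (p :: P) := by
  unfold step1
  obtain ⟨p, hp⟩ := hex
  have hmem : p ∈ allPairs (n * d) := by
    obtain ⟨x, y⟩ := p
    exact mem_allPairs.2 ⟨hp.1.1, hp.1.2.1⟩
  rcases h : (allPairs (n * d)).find? (fun p => decide (Adm d n P p)) with _ | q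
  · rw [List.find?_eq_none] at h
    exact absurd hp (by simpa using h p hmem)
  · have := List.find?_some h
    exact ⟨q, rfl, valid_cons.2 ⟨by simpa using this, hV⟩⟩

theorem stepA_spec {d n : ℕ} (hd : 0 < d) {P : List (ℕ × ℕ)} (hV : Valid d n P)
    (hf : thr d ≤ (freeF d n P).card + 1) :
    Valid d n (stepA d n P) ∧ P <:+ stepA d n P ∧ thr d ≤ (freeF d n (stepA d n P)).card + 1 ∧
      ((stepA d n P).length = P.length + 1 ∨
        ((freeF d n P).card ≤ thr d ∧ stepA d n P = P)) := by
  have hc := card_freeF hV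
  unfold stepA
  split_ifs with h
  · have hbig : (d + 1) * d < (freeF d n P).card := by
      unfold thr at h
      omega
    obtain ⟨x, hx⟩ : (freeF d n P).Nonempty := by
      rw [← Finset.card_pos]; omega
    obtain ⟨y, hy⟩ := exists_partner hd hV hbig hx
    obtain ⟨p, hp, hpV⟩ := step1_spec hV ⟨_, hy⟩
    rw [hp]
    have hc' := card_freeF hpV
    simp only [List.length_cons] at hc'
    refine ⟨hpV, List.suffix_cons _ _, ?_, Or.inl rfl⟩
    omega
  · refine ⟨hV, List.suffix_refl _, hf, Or.inr ⟨?_, rfl⟩⟩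
    omega

theorem stageA_spec {d n : ℕ} (hd : 0 < d) {P : List (ℕ × ℕ)} (hV : Valid d n P)
    (hf : thr d ≤ (freeF d n P).card + 1) (k : ℕ) :
    Valid d n ((stepA d n)^[k] P) ∧ P <:+ (stepA d n)^[k] P ∧
      thr d ≤ (freeF d n ((stepA d n)^[k] P)).card + 1 ∧
      (k ≤ ((stepA d n)^[k] P).length ∨ (freeF d n ((stepA d n)^[k] P)).card ≤ thr d) := by
  induction k with
  | zero => exact ⟨hV, List.suffix_refl _, hf, Or.inl (Nat.zero_le _)⟩
  | succ k ih =>
    rw [Function.iterate_succ_apply']
    obtain ⟨h1, h2, h3, h4⟩ := ih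
    obtain ⟨g1, g2, g3, g4⟩ := stepA_spec hd h1 h3
    refine ⟨g1, h2.trans g2, g3, ?_⟩
    rcases g4 with g4 | g4
    · rcases h4 with h4 | h4
      · left; omega
      · right
        have e1 := card_freeF h1
        have e2 := card_freeF g1
        omega
    · right
      rw [g4.2]; exact g4.1

/-- expansion of a list of partial matchings by all admissible pairs -/
def expand (d n : ℕ) (L : List (List (ℕ × ℕ))) : List (List (ℕ × ℕ)) :=
  L.flatMap fun Q => if 2 * Q.length = n * d then [Q] else
    ((allPairs (n * d)).filter (fun p => decide (Adm d n Q p))).map (fun p => p :: Q)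

theorem expand_valid {d n : ℕ} {P : List (ℕ × ℕ)} {L : List (List (ℕ × ℕ))}
    (h : ∀ Q ∈ L, Valid d n Q ∧ P <:+ Q) : ∀ Q ∈ expand d n L, Valid d n Q ∧ P <:+ Q := by
  intro Q hQ
  unfold expand at hQ
  rw [List.mem_flatMap] at hQ
  obtain ⟨R, hR, hQ⟩ := hQ
  obtain ⟨h1, h2⟩ := h R hR
  split_ifs at hQ with hc
  · rw [List.mem_singleton] at hQ
    rw [hQ]; exact ⟨h1, h2⟩
  · rw [List.mem_map] at hQ
    obtain ⟨p, hp, rfl⟩ := hQ
    rw [List.mem_filter] at hp
    have hp2 : Adm d n R p := by simpa using hp.2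
    exact ⟨valid_cons.2 ⟨hp2, h1⟩, h2.trans (List.suffix_cons _ _)⟩

theorem expand_full {d n : ℕ} {L : List (List (ℕ × ℕ))} {Q : List (ℕ × ℕ)} (hQ : Q ∈ L)
    (hf : 2 * Q.length = n * d) : Q ∈ expand d n L := by
  unfold expand
  rw [List.mem_flatMap]
  exact ⟨Q, hQ, by rw [if_pos hf]; simp⟩

theorem expand_cons {d n : ℕ} {L : List (List (ℕ × ℕ))} {p : ℕ × ℕ} {Q : List (ℕ × ℕ)}
    (hQ : Q ∈ L) (hV : Valid d n (p :: Q)) : (p :: Q) ∈ expand d n L := by
  unfold expand
  rw [List.mem_flatMap]
  refine ⟨Q, hQ, ?_⟩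
  have h1 := length_le hV
  rw [List.length_cons] at h1
  rw [if_neg (by omega), List.mem_map]
  refine ⟨p, ?_, rfl⟩
  rw [List.mem_filter]
  have h2 := (valid_cons.1 hV).1
  obtain ⟨x, y⟩ := p
  exact ⟨mem_allPairs.2 ⟨h2.1.1, h2.1.2.1⟩, by simpa using h2⟩

theorem iterate_expand_mem {d n : ℕ} {P : List (ℕ × ℕ)} (New : List (ℕ × ℕ))
    (hV : Valid d n (New ++ P)) : New ++ P ∈ (expand d n)^[New.length] [P] := by
  induction New with
  | nil => simp
  | cons p New ih =>
    rw [List.length_cons, Function.iterate_succ_apply', List.cons_append]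
    exact expand_cons (ih (by simpa using hV.tail)) (by simpa using hV)

theorem iterate_expand_full {d n : ℕ} {L : List (List (ℕ × ℕ))} {Q : List (ℕ × ℕ)} (hQ : Q ∈ L)
    (hf : 2 * Q.length = n * d) (k : ℕ) : Q ∈ (expand d n)^[k] L := by
  induction k with
  | zero => simpa using hQ
  | succ k ih =>
    rw [Function.iterate_succ_apply']
    exact expand_full ih hf

theorem iterate_expand_valid {d n : ℕ} {P : List (ℕ × ℕ)} (hV : Valid d n P) (k : ℕ) :
    ∀ Q ∈ (expand d n)^[k] [P], Valid d n Q ∧ P <:+ Q := by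
  induction k with
  | zero =>
    intro Q hQ
    simp at hQ
    rw [hQ]; exact ⟨hV, List.suffix_refl _⟩
  | succ k ih =>
    rw [Function.iterate_succ_apply']
    exact expand_valid ih

/-- the finishing algorithm -/
def finish (d n : ℕ) (P : List (ℕ × ℕ)) : List (ℕ × ℕ) :=
  (((expand d n)^[thr d] [(stepA d n)^[n * d] P]).find?
    (fun Q => decide (2 * Q.length = n * d))).getD []

theorem finish_spec {d n : ℕ} (hd : 0 < d) (hev : Even (n * d)) {P : List (ℕ × ℕ)}
    (hV : Valid d n P) (hf : 2 * P.length + thr d ≤ n * d + 1) :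
    Valid d n (finish d n P) ∧ P <:+ finish d n P ∧ 2 * (finish d n P).length = n * d := by
  have hc := card_freeF hV
  obtain ⟨h1, h2, h3, h4⟩ := stageA_spec hd hV (by omega) (n * d)
  unfold finish
  generalize (stepA d n)^[n * d] P = Q at h1 h2 h3 h4 ⊢
  have hcQ := card_freeF h1
  have hsmall : (freeF d n Q).card ≤ thr d := by
    rcases h4 with h4 | h4
    · omega
    · exact h4
  obtain ⟨New, hN1, hN2⟩ := exists_completion hd hev h1 (by unfold thr at h3; omega)
  have hNl : New.length ≤ thr d := by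
    rw [List.length_append] at hN2
    omega
  have hmem : New ++ Q ∈ (expand d n)^[thr d] [Q] := by
    have e : thr d = (thr d - New.length) + New.length := by omega
    rw [e, Function.iterate_add_apply]
    exact iterate_expand_full (iterate_expand_mem New hN1) hN2 _
  rcases h : ((expand d n)^[thr d] [Q]).find? (fun Q => decide (2 * Q.length = n * d)) with _ | R
  · rw [List.find?_eq_none] at h
    exact absurd hN2 (by simpa using h _ hmem)
  · have hR1 := List.find?_some h
    have hR2 := List.mem_of_find?_eq_some h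
    obtain ⟨g1, g2⟩ := iterate_expand_valid h1 _ R hR2
    rw [h, Option.getD_some]
    exact ⟨g1, h2.trans g2, by simpa using hR1⟩

end Crest.Agent.R062.EndAlg
end

-- ▼ part R062/EndPT

/-!
Row 62: the finishing algorithm is polynomial time.
-/

set_option autoImplicit false

namespace Crest.Agent.R062.EndPT

open Crest.Agent.R062.Pairs Crest.Agent.R062.EndComplete Crest.Agent.R062.EndAlg
open Crest.Agent.Lib.PT

section

variable {γ : Type} [PTCode γ]

theorem pt_good (d : ℕ) {n : γ → ℕ} {p : γ → ℕ × ℕ} (hn : PTU n) (hp : PTF p) :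
    PTPred (fun c => Good d (n c) (p c)) := by
  unfold Good
  have h1 : PTF (fun c => n c * d) := (PTU.mul hn (PTU.const d)).toPTF
  have h2 : PTF (fun c => (p c).1) := by fun_prop
  have h3 : PTF (fun c => (p c).2) := by fun_prop
  exact (PTPred.natLt h2 h1).and ((PTPred.natLt h3 h1).and
    (PTPred.natEq (PTF.natDiv h2 (PTF.const d)) (PTF.natDiv h3 (PTF.const d))).not)

theorem pt_compat (d : ℕ) {p q : γ → ℕ × ℕ} (hp : PTF p) (hq : PTF q) :
    PTPred (fun c => Compat d (p c) (q c)) := by
  unfold Compat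
  have h2 : PTF (fun c => (p c).1) := by fun_prop
  have h3 : PTF (fun c => (p c).2) := by fun_prop
  have h4 : PTF (fun c => (q c).1) := by fun_prop
  have h5 : PTF (fun c => (q c).2) := by fun_prop
  have g2 := PTF.natDiv h2 (PTF.const d)
  have g3 := PTF.natDiv h3 (PTF.const d)
  have g4 := PTF.natDiv h4 (PTF.const d)
  have g5 := PTF.natDiv h5 (PTF.const d)
  refine PTPred.and ?_ (PTPred.and ?_ ?_)
  · exact (PTPred.natEq h2 h4).not.and ((PTPred.natEq h2 h5).not.and
      ((PTPred.natEq h3 h4).not.and (PTPred.natEq h3 h5).not))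
  · exact ((PTPred.natEq g2 g4).and (PTPred.natEq g3 g5)).not
  · exact ((PTPred.natEq g2 g5).and (PTPred.natEq g3 g4)).not

theorem pt_adm (d : ℕ) {n : γ → ℕ} {P : γ → List (ℕ × ℕ)} {p : γ → ℕ × ℕ} (hn : PTU n)
    (hP : PTF P) (hp : PTF p) : PTPred (fun c => Adm d (n c) (P c) (p c)) := by
  unfold Adm
  refine (pt_good d hn hp).and (PTPred.forall_mem hP ?_)
  exact pt_compat d (hp.comp PTF.fst) PTF.snd

theorem pt_allPairs {M : γ → ℕ} (hM : PTU M) : PTF (fun c => allPairs (M c)) := by
  unfold allPairs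
  refine PTF.flatMap (PTF.range hM) ?_
  dsimp only [PTF₂]
  refine PTF.map (PTF.range (hM.comp PTF.fst)) ?_
  dsimp only [PTF₂]
  fun_prop

theorem pt_step1 (d : ℕ) {n : γ → ℕ} {P : γ → List (ℕ × ℕ)} (hn : PTU n) (hP : PTF P) :
    PTF (fun c => step1 d (n c) (P c)) := by
  unfold step1
  have h1 : PTF (fun c => (allPairs (n c * d)).find? (fun p => decide (Adm d (n c) (P c) p))) := by
    refine PTF.find? (pt_allPairs (PTU.mul hn (PTU.const d)))
      (p := fun c p => decide (Adm d (n c) (P c) p)) ?_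
    dsimp only [PTF₂]
    exact (pt_adm d (hn.comp PTF.fst) (hP.comp PTF.fst) PTF.snd).toPTF
  refine (PTF.optionCasesOn h1 hP (g := fun c p => p :: P c) (by
    dsimp only [PTF₂]; fun_prop)).of_eq (fun c => ?_)
  rcases (allPairs (n c * d)).find? (fun p => decide (Adm d (n c) (P c) p)) with _ | p <;> rfl

theorem pt_stepA (d : ℕ) {n : γ → ℕ} {P : γ → List (ℕ × ℕ)} (hn : PTU n) (hP : PTF P) :
    PTF (fun c => stepA d (n c) (P c)) := by
  unfold stepA
  refine PTF.ite ?_ (pt_step1 d hn hP) hP
  exact PTU.lt (PTU.add (PTU.mul (PTU.const 2) (PTU.length hP)) (PTU.const _))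
    (PTU.mul hn (PTU.const d))

theorem sz_stepA_le (d n : ℕ) (P : List (ℕ × ℕ)) :
    sz (stepA d n P) ≤ sz P + (6 * (n * d) + 3) := by
  unfold stepA
  split_ifs
  · unfold step1
    rcases h : (allPairs (n * d)).find? (fun p => decide (Adm d n P p)) with _ | ⟨x, y⟩
    · simp
    · have := List.mem_of_find?_eq_some h
      rw [mem_allPairs] at this
      have h1 := sz_nat_le x
      have h2 := sz_nat_le y
      simp only [sz_cons, sz_prod]
      omega
  · omega

theorem pt_stageA (d : ℕ) {n : γ → ℕ} {P : γ → List (ℕ × ℕ)} (hn : PTU n) (hP : PTF P) :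
    PTF (fun c => (stepA d (n c))^[n c * d] (P c)) := by
  have hnd : PTU (fun c => n c * d) := PTU.mul hn (PTU.const d)
  refine PTF.iterate_add (f := fun c P => stepA d (n c) P) hnd ?_ hP
    (G := fun c => 6 * (n c * d) + 3) ?_ (fun c P => sz_stepA_le d (n c) P)
  · dsimp only [PTF₂]
    exact pt_stepA d (hn.comp PTF.fst) PTF.snd
  · have := hnd.pb
    exact PB.add (PB.mul (PB.const 6) this) (PB.const 3)

theorem pt_expand (d : ℕ) {n : γ → ℕ} {L : γ → List (List (ℕ × ℕ))} (hn : PTU n) (hL : PTF L) :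
    PTF (fun c => expand d (n c) (L c)) := by
  unfold expand
  refine PTF.flatMap hL ?_
  dsimp only [PTF₂]
  have hn' : PTU (fun a : γ × List (ℕ × ℕ) => n a.1) := hn.comp PTF.fst
  have hQ : PTF (fun a : γ × List (ℕ × ℕ) => a.2) := PTF.snd
  refine PTF.ite (PTU.eq (PTU.mul (PTU.const 2) (PTU.length hQ)) (PTU.mul hn' (PTU.const d))) ?_ ?_
  · fun_prop
  · refine PTF.map (PTF.filter (pt_allPairs (PTU.mul hn' (PTU.const d))) ?_) ?_
    · dsimp only [PTF₂]
      exact (pt_adm d (hn'.comp PTF.fst) (hQ.comp PTF.fst) PTF.snd).toPTF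
    · dsimp only [PTF₂]
      fun_prop

theorem pt_iter_expand (d : ℕ) {n : γ → ℕ} {L : γ → List (List (ℕ × ℕ))} (hn : PTU n)
    (hL : PTF L) (k : ℕ) : PTF (fun c => (expand d (n c))^[k] (L c)) := by
  induction k with
  | zero => simpa using hL
  | succ k ih =>
    simp only [Function.iterate_succ_apply']
    exact pt_expand d hn ih

/-- the finishing algorithm is polynomial time -/
theorem pt_finish (d : ℕ) {n : γ → ℕ} {P : γ → List (ℕ × ℕ)} (hn : PTU n) (hP : PTF P) :
    PTF (fun c => finish d (n c) (P c)) := by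
  unfold finish
  refine PTF.optionGetD (PTF.find? (pt_iter_expand d hn ?_ _) ?_) (PTF.const _)
  · have := pt_stageA d hn hP
    fun_prop
  · dsimp only [PTF₂]
    have hQ : PTF (fun a : γ × List (ℕ × ℕ) => a.2) := PTF.snd
    exact (PTU.eq (PTU.mul (PTU.const 2) (PTU.length hQ))
      (PTU.mul (hn.comp PTF.fst) (PTU.const d))).toPTF

end

end Crest.Agent.R062.EndPT
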