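import Mathlib

/-!
Row 62: combinatorics of lists of stub pairs.  Stub `j < n * d` sits at vertex `j / d`.
-/

set_option autoImplicit false

namespace Crest.Agent.R062.Pairs

/-- stubs in range, at different vertices -/
def Good (d n : ℕ) (p : ℕ × ℕ) : Prop := p.1 < n * d ∧ p.2 < n * d ∧ p.1 / d ≠ p.2 / d

instance (d n : ℕ) (p : ℕ × ℕ) : Decidable (Good d n p) := by unfold Good; infer_instance

/-- two pairs can coexist in a simple matching: no common stub, different vertex pairs -/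
def Compat (d : ℕ) (p q : ℕ × ℕ) : Prop :=
  (p.1 ≠ q.1 ∧ p.1 ≠ q.2 ∧ p.2 ≠ q.1 ∧ p.2 ≠ q.2) ∧
    ¬ (p.1 / d = q.1 / d ∧ p.2 / d = q.2 / d) ∧ ¬ (p.1 / d = q.2 / d ∧ p.2 / d = q.1 / d)

instance (d : ℕ) (p q : ℕ × ℕ) : Decidable (Compat d p q) := by unfold Compat; infer_instance

theorem Compat.symm {d : ℕ} {p q : ℕ × ℕ} (h : Compat d p q) : Compat d q p := by
  obtain ⟨⟨h1, h2, h3, h4⟩, h5, h6⟩ := h
  refine ⟨⟨h1.symm, h3.symm, h2.symm, h4.symm⟩, fun h => h5 ⟨h.1.symm, h.2.symm⟩,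
    fun h => h6 ⟨h.2.symm, h.1.symm⟩⟩

/-- `p` may be added to `P` -/
def Adm (d n : ℕ) (P : List (ℕ × ℕ)) (p : ℕ × ℕ) : Prop := Good d n p ∧ ∀ q ∈ P, Compat d p q

instance (d n : ℕ) (P : List (ℕ × ℕ)) (p : ℕ × ℕ) : Decidable (Adm d n P p) := by
  unfold Adm; infer_instance

/-- a valid (partial) simple matching of the stubs -/
def Valid (d n : ℕ) (P : List (ℕ × ℕ)) : Prop :=
  (∀ p ∈ P, Good d n p) ∧ P.Pairwise (Compat d)

theorem valid_nil (d n : ℕ) : Valid d n [] := ⟨by simp, List.Pairwise.nil⟩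

theorem valid_cons {d n : ℕ} {p : ℕ × ℕ} {P : List (ℕ × ℕ)} :
    Valid d n (p :: P) ↔ Adm d n P p ∧ Valid d n P := by
  unfold Valid Adm
  rw [List.pairwise_cons]
  simp only [List.mem_cons, forall_eq_or_imp]
  tauto

theorem Valid.tail {d n : ℕ} {p : ℕ × ℕ} {P : List (ℕ × ℕ)} (h : Valid d n (p :: P)) :
    Valid d n P := (valid_cons.1 h).2

theorem Valid.perm {d n : ℕ} {P Q : List (ℕ × ℕ)} (h : Valid d n P) (hPQ : P.Perm Q) :
    Valid d n Q := by
  refine ⟨fun p hp => h.1 p (hPQ.mem_iff.2 hp), ?_⟩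
  exact (hPQ.pairwise_iff (fun {_ _} h => h.symm)).1 h.2

theorem Valid.of_append_right {d n : ℕ} {P Q : List (ℕ × ℕ)} (h : Valid d n (P ++ Q)) :
    Valid d n Q := by
  induction P with
  | nil => exact h
  | cons p P ih => exact ih (by simpa using h.tail)


/-- the stubs used by `P` -/
def stubs (P : List (ℕ × ℕ)) : List ℕ := P.flatMap fun p => [p.1, p.2]


theorem stubs_cons (p : ℕ × ℕ) (P : List (ℕ × ℕ)) : stubs (p :: P) = p.1 :: p.2 :: stubs P := by
  simp [stubs]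

theorem mem_stubs {P : List (ℕ × ℕ)} {j : ℕ} : j ∈ stubs P ↔ ∃ q ∈ P, j = q.1 ∨ j = q.2 := by
  simp [stubs]

theorem length_stubs (P : List (ℕ × ℕ)) : (stubs P).length = 2 * P.length := by
  induction P with
  | nil => rfl
  | cons p P ih => rw [stubs_cons]; simp only [List.length_cons, ih]; ring

theorem nodup_stubs {d n : ℕ} {P : List (ℕ × ℕ)} (h : Valid d n P) : (stubs P).Nodup := by
  induction P with
  | nil => simp [stubs]
  | cons p P ih =>
    rw [valid_cons] at h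
    rw [stubs_cons]
    have h0 := ih h.2
    have hg := h.1.1
    have hc := h.1.2
    rw [List.nodup_cons, List.nodup_cons]
    refine ⟨?_, ?_, h0⟩
    · rw [List.mem_cons, mem_stubs]
      rintro (h1 | ⟨q, hq, h1 | h1⟩)
      · exact hg.2.2 (by rw [h1])
      · exact (hc q hq).1.1 h1
      · exact (hc q hq).1.2.1 h1
    · rw [mem_stubs]
      rintro ⟨q, hq, h1 | h1⟩
      · exact (hc q hq).1.2.2.1 h1
      · exact (hc q hq).1.2.2.2 h1

theorem stubs_lt {d n : ℕ} {P : List (ℕ × ℕ)} (h : Valid d n P) {j : ℕ} (hj : j ∈ stubs P) :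
    j < n * d := by
  rw [mem_stubs] at hj
  obtain ⟨q, hq, h1 | h1⟩ := hj
  · rw [h1]; exact (h.1 q hq).1
  · rw [h1]; exact (h.1 q hq).2.1

/-- the used stubs, as a finset -/
def usedF (P : List (ℕ × ℕ)) : Finset ℕ := (stubs P).toFinset

/-- the free stubs -/
def freeF (d n : ℕ) (P : List (ℕ × ℕ)) : Finset ℕ := Finset.range (n * d) \ usedF P

theorem mem_freeF {d n : ℕ} {P : List (ℕ × ℕ)} {j : ℕ} :
    j ∈ freeF d n P ↔ j < n * d ∧ j ∉ stubs P := by
  simp [freeF, usedF]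

theorem card_usedF {d n : ℕ} {P : List (ℕ × ℕ)} (h : Valid d n P) :
    (usedF P).card = 2 * P.length := by
  rw [usedF, List.toFinset_card_of_nodup (nodup_stubs h), length_stubs]

theorem usedF_subset {d n : ℕ} {P : List (ℕ × ℕ)} (h : Valid d n P) :
    usedF P ⊆ Finset.range (n * d) := by
  intro j hj
  rw [usedF, List.mem_toFinset] at hj
  exact Finset.mem_range.2 (stubs_lt h hj)

theorem card_freeF {d n : ℕ} {P : List (ℕ × ℕ)} (h : Valid d n P) :
    (freeF d n P).card + 2 * P.length = n * d := by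
  have h1 := Finset.card_sdiff_add_card_eq_card (usedF_subset h)
  rw [card_usedF h, Finset.card_range] at h1
  exact h1

theorem length_le {d n : ℕ} {P : List (ℕ × ℕ)} (h : Valid d n P) : 2 * P.length ≤ n * d := by
  have := card_freeF h
  omega

/-! ### vertices -/

/-- the stubs at vertex `v` -/
def at_ (d v : ℕ) : Finset ℕ := Finset.Ico (v * d) (v * d + d)

theorem mem_at {d v j : ℕ} (hd : 0 < d) : j ∈ at_ d v ↔ j / d = v := by
  rw [at_, Finset.mem_Ico, Nat.div_eq_iff hd]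
  constructor
  · rintro ⟨h1, h2⟩; exact ⟨h1, by omega⟩
  · rintro ⟨h1, h2⟩; exact ⟨h1, by omega⟩

theorem card_at (d v : ℕ) : (at_ d v).card = d := by simp [at_]

/-- adjacency of vertices in the partial graph -/
def AdjN (d : ℕ) (P : List (ℕ × ℕ)) (v w : ℕ) : Prop :=
  ∃ q ∈ P, (q.1 / d = v ∧ q.2 / d = w) ∨ (q.1 / d = w ∧ q.2 / d = v)

instance (d : ℕ) (P : List (ℕ × ℕ)) (v w : ℕ) : Decidable (AdjN d P v w) := by
  unfold AdjN; infer_instance

theorem AdjN.symm {d : ℕ} {P : List (ℕ × ℕ)} {v w : ℕ} (h : AdjN d P v w) : AdjN d P w v := by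
  obtain ⟨q, hq, h | h⟩ := h
  · exact ⟨q, hq, Or.inr h⟩
  · exact ⟨q, hq, Or.inl h⟩

/-- list of the neighbours of `v` -/
def nbl (d : ℕ) (P : List (ℕ × ℕ)) (v : ℕ) : List ℕ :=
  P.flatMap fun q => (if q.1 / d = v then [q.2 / d] else []) ++
    (if q.2 / d = v then [q.1 / d] else [])

theorem nbl_cons (d : ℕ) (p : ℕ × ℕ) (P : List (ℕ × ℕ)) (v : ℕ) :
    nbl d (p :: P) v = ((if p.1 / d = v then [p.2 / d] else []) ++
    (if p.2 / d = v then [p.1 / d] else [])) ++ nbl d P v := by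
  simp [nbl]

theorem mem_nbl {d : ℕ} {P : List (ℕ × ℕ)} {v w : ℕ} : w ∈ nbl d P v ↔ AdjN d P v w := by
  unfold nbl AdjN
  rw [List.mem_flatMap]
  refine exists_congr fun q => and_congr_right fun _ => ?_
  rw [List.mem_append]
  by_cases h1 : q.1 / d = v <;> by_cases h2 : q.2 / d = v
  · simp [h1, h2, eq_comm]
  · simp [h1, h2, eq_comm]
  · simp [h1, h2, eq_comm]
  · simp [h1, h2, eq_comm]

theorem length_nbl (d : ℕ) (P : List (ℕ × ℕ)) (v : ℕ) :
    (nbl d P v).length = (stubs P).countP (fun j => decide (j / d = v)) := by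
  induction P with
  | nil => simp [nbl, stubs]
  | cons p P ih =>
    rw [nbl_cons, stubs_cons, List.countP_cons, List.countP_cons, List.length_append, ih]
    by_cases h1 : p.1 / d = v <;> by_cases h2 : p.2 / d = v <;> simp [h1, h2] <;> omega

theorem nodup_nbl {d n : ℕ} {P : List (ℕ × ℕ)} (h : Valid d n P) (v : ℕ) : (nbl d P v).Nodup := by
  induction P with
  | nil => simp [nbl]
  | cons p P ih =>
    rw [valid_cons] at h
    have h0 := ih h.2
    have hg := h.1.1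
    have hc := h.1.2
    rw [nbl_cons]
    by_cases h1 : p.1 / d = v
    · have h2 : ¬ p.2 / d = v := fun h2 => hg.2.2 (by rw [h1, h2])
      simp only [h1, h2, if_true, if_false, List.append_nil, List.singleton_append]
      rw [List.nodup_cons]
      refine ⟨?_, h0⟩
      rw [mem_nbl]
      rintro ⟨q, hq, ⟨h3, h4⟩ | ⟨h3, h4⟩⟩
      · exact (hc q hq).2.1 ⟨by rw [h1, h3], h4.symm⟩
      · exact (hc q hq).2.2 ⟨by rw [h1, h4], h3.symm⟩
    · by_cases h2 : p.2 / d = v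
      · simp only [h1, h2, if_true, if_false, List.nil_append, List.singleton_append]
        rw [List.nodup_cons]
        refine ⟨?_, h0⟩
        rw [mem_nbl]
        rintro ⟨q, hq, ⟨h3, h4⟩ | ⟨h3, h4⟩⟩
        · exact (hc q hq).2.2 ⟨h4.symm, by rw [h2, h3]⟩
        · exact (hc q hq).2.1 ⟨h3.symm, by rw [h2, h4]⟩
      · simpa only [h1, h2, if_false, List.nil_append] using h0

theorem length_nbl_eq {d n : ℕ} (hd : 0 < d) {P : List (ℕ × ℕ)} (h : Valid d n P) (v : ℕ) :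
    (nbl d P v).length = (usedF P ∩ at_ d v).card := by
  rw [length_nbl, List.countP_eq_length_filter, usedF]
  rw [← List.toFinset_card_of_nodup ((nodup_stubs h).filter _)]
  congr 1
  ext j
  simp [mem_at hd]

theorem length_nbl_le {d n : ℕ} (hd : 0 < d) {P : List (ℕ × ℕ)} (h : Valid d n P) (v : ℕ) :
    (nbl d P v).length ≤ d := by
  rw [length_nbl_eq hd h]
  exact (Finset.card_le_card Finset.inter_subset_right).trans (card_at d v).le

theorem length_nbl_of_full {d n : ℕ} (hd : 0 < d) {P : List (ℕ × ℕ)} (h : Valid d n P)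
    (hf : 2 * P.length = n * d) {v : ℕ} (hv : v < n) : (nbl d P v).length = d := by
  rw [length_nbl_eq hd h]
  have h1 : usedF P = Finset.range (n * d) := by
    apply Finset.eq_of_subset_of_card_le (usedF_subset h)
    rw [card_usedF h, Finset.card_range, hf]
  rw [h1, Finset.inter_eq_right.2, card_at]
  intro j hj
  rw [mem_at hd] at hj
  rw [Finset.mem_range]
  rw [← hj, Nat.div_lt_iff_lt_mul hd] at hv
  exact hv

/-- the forbidden zone of a vertex: the stubs at it or at its neighbours -/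
def zone (d : ℕ) (P : List (ℕ × ℕ)) (v : ℕ) : Finset ℕ :=
  (insert v (nbl d P v).toFinset).biUnion (at_ d)

theorem mem_zone {d : ℕ} (hd : 0 < d) {P : List (ℕ × ℕ)} {v j : ℕ} :
    j ∈ zone d P v ↔ j / d = v ∨ AdjN d P v (j / d) := by
  unfold zone
  rw [Finset.mem_biUnion]
  constructor
  · rintro ⟨w, hw, hj⟩
    rw [mem_at hd] at hj
    rw [Finset.mem_insert, List.mem_toFinset, mem_nbl] at hw
    rw [hj]
    exact hw
  · intro h
    refine ⟨j / d, ?_, (mem_at hd).2 rfl⟩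
    rw [Finset.mem_insert, List.mem_toFinset, mem_nbl]
    exact h

theorem card_zone_le {d n : ℕ} (hd : 0 < d) {P : List (ℕ × ℕ)} (h : Valid d n P) (v : ℕ) :
    (zone d P v).card ≤ (d + 1) * d := by
  unfold zone
  refine Finset.card_biUnion_le.trans ?_
  rw [Finset.sum_congr rfl (fun w _ => card_at d w), Finset.sum_const, smul_eq_mul]
  refine Nat.mul_le_mul_right d ?_
  refine (Finset.card_insert_le _ _).trans ?_
  have := (List.toFinset_card_le (nbl d P v)).trans (length_nbl_le hd h v)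
  omega

theorem adm_of {d n : ℕ} {P : List (ℕ × ℕ)} {x y : ℕ} (hx : x ∈ freeF d n P)
    (hy : y ∈ freeF d n P) (h1 : x / d ≠ y / d) (h2 : ¬ AdjN d P (x / d) (y / d)) :
    Adm d n P (x, y) := by
  rw [mem_freeF] at hx hy
  refine ⟨⟨hx.1, hy.1, h1⟩, fun q hq => ⟨⟨?_, ?_, ?_, ?_⟩, ?_, ?_⟩⟩
  · intro h; exact hx.2 (mem_stubs.2 ⟨q, hq, Or.inl h⟩)
  · intro h; exact hx.2 (mem_stubs.2 ⟨q, hq, Or.inr h⟩)
  · intro h; exact hy.2 (mem_stubs.2 ⟨q, hq, Or.inl h⟩)
  · intro h; exact hy.2 (mem_stubs.2 ⟨q, hq, Or.inr h⟩)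
  · rintro ⟨h3, h4⟩; exact h2 ⟨q, hq, Or.inl ⟨h3.symm, h4.symm⟩⟩
  · rintro ⟨h3, h4⟩; exact h2 ⟨q, hq, Or.inr ⟨h4.symm, h3.symm⟩⟩

theorem adm_iff {d n : ℕ} {P : List (ℕ × ℕ)} {x y : ℕ} :
    Adm d n P (x, y) ↔ x ∈ freeF d n P ∧ y ∈ freeF d n P ∧ x / d ≠ y / d ∧
      ¬ AdjN d P (x / d) (y / d) := by
  constructor
  · rintro ⟨⟨h1, h2, h3⟩, h4⟩
    refine ⟨mem_freeF.2 ⟨h1, ?_⟩, mem_freeF.2 ⟨h2, ?_⟩, h3, ?_⟩
    · rw [mem_stubs]
      rintro ⟨q, hq, h | h⟩
      · exact (h4 q hq).1.1 h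
      · exact (h4 q hq).1.2.1 h
    · rw [mem_stubs]
      rintro ⟨q, hq, h | h⟩
      · exact (h4 q hq).1.2.2.1 h
      · exact (h4 q hq).1.2.2.2 h
    · rintro ⟨q, hq, h | h⟩
      · exact (h4 q hq).2.1 ⟨h.1.symm, h.2.symm⟩
      · exact (h4 q hq).2.2 ⟨h.2.symm, h.1.symm⟩
  · rintro ⟨h1, h2, h3, h4⟩
    exact adm_of h1 h2 h3 h4

/-- with more than `(d+1) d` free stubs, every free stub has an admissible partner -/
theorem exists_partner {d n : ℕ} (hd : 0 < d) {P : List (ℕ × ℕ)} (h : Valid d n P)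
    (hf : (d + 1) * d < (freeF d n P).card) {x : ℕ} (hx : x ∈ freeF d n P) :
    ∃ y, Adm d n P (x, y) := by
  have h1 : ¬ freeF d n P ⊆ zone d P (x / d) := by
    intro h1
    have := (Finset.card_le_card h1).trans (card_zone_le hd h _)
    omega
  rw [Finset.not_subset] at h1
  obtain ⟨y, hy, hy2⟩ := h1
  rw [mem_zone hd] at hy2
  push Not at hy2
  exact ⟨y, adm_of hx hy hy2.1.symm hy2.2⟩

end Crest.Agent.R062.Pairs
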