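import Crest.Agent.R062.MachDefs
import Crest.Agent.R062.EndPT
import Crest.Agent.R62.Start_Mg

-- ▼ part R062/MachErr
section

/-!
# R62: the machine, error propagation
-/

set_option autoImplicit false

namespace Crest.Agent.R062.Mach

open Finset

/-- `b` approximates `a`, which is bounded by `B`, with relative error `ε` -/
def Ap (ε B a b : ℝ) : Prop := |a| ≤ B ∧ |b - a| ≤ ε * B

theorem Ap.mono {ε B B' a b : ℝ} (hε : 0 ≤ ε) (h : Ap ε B a b) (hB : B ≤ B') : Ap ε B' a b :=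
  ⟨h.1.trans hB, h.2.trans (mul_le_mul_of_nonneg_left hB hε)⟩

theorem Ap.pos {ε B a b : ℝ} (h : Ap ε B a b) : 0 ≤ B := (abs_nonneg a).trans h.1

theorem Ap.const {ε B a : ℝ} (hε : 0 ≤ ε) (h : |a| ≤ B) : Ap ε B a a :=
  ⟨h, by rw [sub_self, abs_zero]; exact mul_nonneg hε ((abs_nonneg a).trans h)⟩

theorem Ap.add {ε B B' a b a' b' : ℝ} (h : Ap ε B a b) (h' : Ap ε B' a' b') :
    Ap ε (B + B') (a + a') (b + b') := by
  refine ⟨(abs_add_le _ _).trans (add_le_add h.1 h'.1), ?_⟩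
  have : b + b' - (a + a') = (b - a) + (b' - a') := by ring
  rw [this, mul_add]
  exact (abs_add_le _ _).trans (add_le_add h.2 h'.2)

theorem Ap.neg {ε B a b : ℝ} (h : Ap ε B a b) : Ap ε B (-a) (-b) := by
  refine ⟨by rw [abs_neg]; exact h.1, ?_⟩
  have : -b - -a = -(b - a) := by ring
  rw [this, abs_neg]; exact h.2

theorem Ap.sub {ε B B' a b a' b' : ℝ} (h : Ap ε B a b) (h' : Ap ε B' a' b') :
    Ap ε (B + B') (a - a') (b - b') := by
  have := h.add h'.neg
  simpa [sub_eq_add_neg] using this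

theorem Ap.mul {ε B B' a b a' b' : ℝ} (hε : 0 ≤ ε) (hε1 : ε ≤ 1) (h : Ap ε B a b)
    (h' : Ap ε B' a' b') : Ap ε (3 * (B * B')) (a * a') (b * b') := by
  have hB := h.pos
  have hB' := h'.pos
  have hBB : 0 ≤ B * B' := mul_nonneg hB hB'
  constructor
  · rw [abs_mul]
    have := mul_le_mul h.1 h'.1 (abs_nonneg _) hB
    linarith
  · have e : b * b' - a * a' = (b - a) * (b' - a') + (b - a) * a' + a * (b' - a') := by ring
    rw [e]
    refine (abs_add_three _ _ _).trans ?_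
    rw [abs_mul, abs_mul, abs_mul]
    have h1 : |b - a| * |b' - a'| ≤ ε * (B * B') := by
      have h1 := mul_le_mul h.2 h'.2 (abs_nonneg _) (mul_nonneg hε hB)
      have h2 : ε * B * (ε * B') = ε * (ε * (B * B')) := by ring
      rw [h2] at h1
      refine h1.trans (mul_le_mul_of_nonneg_left ?_ hε)
      have := mul_le_mul_of_nonneg_right hε1 hBB
      linarith
    have h2 : |b - a| * |a'| ≤ ε * (B * B') := by
      have h1 := mul_le_mul h.2 h'.1 (abs_nonneg _) (mul_nonneg hε hB)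
      rw [mul_assoc] at h1
      exact h1
    have h3 : |a| * |b' - a'| ≤ ε * (B * B') := by
      have h1 := mul_le_mul h.1 h'.2 (abs_nonneg _) hB
      have h2 : B * (ε * B') = ε * (B * B') := by ring
      rw [h2] at h1
      exact h1
    linarith

theorem Ap.max_zero {ε B a b : ℝ} (h : Ap ε B a b) : Ap ε B (max a 0) (max b 0) := by
  constructor
  · rw [abs_of_nonneg (le_max_right _ _)]
    exact max_le ((le_abs_self a).trans h.1) h.pos
  · exact (abs_max_sub_max_le_abs b a 0).trans h.2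

theorem Ap.sum {ε B : ℝ} {M : ℕ} {f g : ℕ → ℝ} (h : ∀ k < M, Ap ε B (f k) (g k)) :
    Ap ε (M * B) (∑ k ∈ range M, f k) (∑ k ∈ range M, g k) := by
  constructor
  · refine (Finset.abs_sum_le_sum_abs _ _).trans ?_
    have := Finset.sum_le_card_nsmul (range M) (fun k => |f k|) B
      (fun k hk => (h k (Finset.mem_range.1 hk)).1)
    simpa using this
  · rw [← Finset.sum_sub_distrib]
    refine (Finset.abs_sum_le_sum_abs _ _).trans ?_
    have := Finset.sum_le_card_nsmul (range M) (fun k => |g k - f k|) (ε * B)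
      (fun k hk => (h k (Finset.mem_range.1 hk)).2)
    simp only [Finset.card_range, nsmul_eq_mul] at this
    linarith

theorem abs_sg (b : Bool) : |(sg b : ℝ)| = 1 := by
  cases b <;> simp [sg]

section upd

variable {ε R : ℝ} {K L : Mx ℝ} {x y : ℕ} {b : Bool}

theorem Ap.updNum (hε : 0 ≤ ε) (hε1 : ε ≤ 1) (hR : 1 ≤ R) {i j : ℕ}
    (hxx : Ap ε R (K x x) (L x x)) (hyy : Ap ε R (K y y) (L y y)) (hxy : Ap ε R (K x y) (L x y))
    (hix : Ap ε R (K i x) (L i x)) (hxj : Ap ε R (K x j) (L x j))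
    (hiy : Ap ε R (K i y) (L i y)) (hyj : Ap ε R (K y j) (L y j)) :
    Ap ε (240 * R ^ 3) (updNum (sg b) K x y i j) (updNum (sg b) L x y i j) := by
  unfold Mach.updNum
  have hs : Ap ε 1 (sg b : ℝ) (sg b) := Ap.const hε (abs_sg b).le
  have h1 : Ap ε 1 (1 : ℝ) 1 := Ap.const hε (by simp)
  have t1 := hyy.mul hε hε1 (hix.mul hε hε1 hxj)
  have t2 := hxx.mul hε hε1 (hiy.mul hε hε1 hyj)
  have t3 := h1.sub (hs.mul hε hε1 hxy)
  have t4 := hs.mul hε hε1 t3
  have t5 := (hix.mul hε hε1 hyj).add (hiy.mul hε hε1 hxj)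
  have t6 := t4.mul hε hε1 t5
  refine ((t1.add t2).add t6).mono hε ?_
  have hR0 : 0 ≤ R := by linarith
  have hR2 : 0 ≤ R ^ 2 := by positivity
  have hR3 : R ^ 2 ≤ R ^ 3 := by nlinarith
  nlinarith

theorem Ap.Del (hε : 0 ≤ ε) (hε1 : ε ≤ 1) (hR : 1 ≤ R)
    (hxx : Ap ε R (K x x) (L x x)) (hyy : Ap ε R (K y y) (L y y)) (hxy : Ap ε R (K x y) (L x y)) :
    Ap ε (60 * R ^ 2) (Del (sg b) K x y) (Del (sg b) L x y) := by
  unfold Mach.Del
  have hs : Ap ε 1 (sg b : ℝ) (sg b) := Ap.const hε (abs_sg b).le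
  have h1 : Ap ε 1 (1 : ℝ) 1 := Ap.const hε (by simp)
  have t3 := h1.sub (hs.mul hε hε1 hxy)
  have t4 := t3.mul hε hε1 t3
  have t5 := hxx.mul hε hε1 hyy
  have t6 := (t4.sub t5).mono hε (B' := 60 * R ^ 2) (by nlinarith)
  simpa only [pow_two] using t6

/-- quotients with denominator bounded away from zero -/
theorem Ap.div {B D a b p q : ℝ} (hε : 0 ≤ ε) (hD : 1 ≤ D) (h : Ap ε B a b) (h' : Ap ε D p q)
    (hp : 1 / 8 ≤ p) (hs : ε * D ≤ 1 / 16) : Ap ε (150 * (B * D)) (a / p) (b / q) := by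
  have hB := h.pos
  have hBD : 0 ≤ B * D := mul_nonneg hB (by linarith)
  have hq : 1 / 16 ≤ q := by
    have := (abs_le.1 h'.2).1
    linarith
  have hp0 : 0 < p := by linarith
  have hq0 : 0 < q := by linarith
  constructor
  · rw [abs_div, abs_of_pos hp0, div_le_iff₀ hp0]
    have h1 := h.1
    nlinarith
  · have e : b / q - a / p = (b - a) / q + a * (p - q) / (p * q) := by
      field_simp
      ring
    rw [e]
    refine (abs_add_le _ _).trans ?_
    have h1 : |(b - a) / q| ≤ 16 * (ε * (B * D)) := by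
      rw [abs_div, abs_of_pos hq0, div_le_iff₀ hq0]
      have h2 := h.2
      have h3 : ε * B ≤ ε * (B * D) := mul_le_mul_of_nonneg_left (by nlinarith) hε
      have h4 : 0 ≤ ε * (B * D) := mul_nonneg hε hBD
      nlinarith
    have h2 : |a * (p - q) / (p * q)| ≤ 128 * (ε * (B * D)) := by
      rw [abs_div, abs_mul, abs_of_pos (mul_pos hp0 hq0), div_le_iff₀ (mul_pos hp0 hq0)]
      have h3 : |a| * |p - q| ≤ B * (ε * D) := by
        rw [abs_sub_comm p q]
        exact mul_le_mul h.1 h'.2 (abs_nonneg _) hB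
      have h4 : 1 / 128 ≤ p * q := by nlinarith
      have h5 : 0 ≤ ε * (B * D) := mul_nonneg hε hBD
      nlinarith
    have h5 : 0 ≤ ε * (B * D) := mul_nonneg hε hBD
    linarith

theorem Ap.upd (hε : 0 ≤ ε) (hε1 : ε ≤ 1) (hR : 1 ≤ R) {M : ℕ} (hx : x < M) (hy : y < M)
    (h : ∀ i < M, ∀ j < M, Ap ε R (K i j) (L i j))
    (hD : 1 / 8 ≤ Mach.Del (sg b) K x y) (hs : ε * (60 * R ^ 2) ≤ 1 / 16)
    {i j : ℕ} (hi : i < M) (hj : j < M) :
    Ap ε (2200000 * R ^ 5) (upd (sg b) K x y i j) (upd (sg b) L x y i j) := by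
  unfold Mach.upd
  have hR0 : 0 ≤ R := by linarith
  have hR5 : R ≤ R ^ 5 := by
    have : (1 : ℝ) ≤ R ^ 4 := one_le_pow₀ hR
    nlinarith
  split_ifs with hc
  · exact Ap.const hε (by rw [abs_zero]; positivity)
  · have h1 := Ap.updNum (b := b) hε hε1 hR (h x hx x hx) (h y hy y hy) (h x hx y hy)
      (h i hi x hx) (h x hx j hj) (h i hi y hy) (h y hy j hj)
    have h2 := Ap.Del (b := b) hε hε1 hR (h x hx x hx) (h y hy y hy) (h x hx y hy)
    have h3 := h1.div hε (by nlinarith) h2 hD hs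
    refine ((h i hi j hj).add h3).mono hε ?_
    have : 150 * (240 * R ^ 3 * (60 * R ^ 2)) = 2160000 * R ^ 5 := by ring
    rw [this]
    linarith

end upd

/-- evaluation is robust -/
theorem eval_ap (a : E) : ∃ k : ℕ, ∀ (T ε : ℝ), 2 ≤ T → 0 ≤ ε → ε ≤ 1 → ∀ (m r : ℕ),
    ∀ (e e' : Env ℝ), e.M = e'.M → e.x = e'.x → e.y = e'.y → e.x < e.M → e.y < e.M →
    e.W = e'.W → e.c = e'.c → (e.M : ℝ) ≤ T ^ m → (∀ c : Cst, |e.c c| ≤ T ^ (m * c.deg)) →
    (∀ c : RC, Ap ε (T ^ c.deg) (e.r c) (e'.r c)) →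
    (∀ nw b, ∀ i < e.M, ∀ j < e.M, Ap ε (T ^ r) (e.K nw b i j) (e'.K nw b i j)) →
    ∀ i < e.M, ∀ j < e.M, Ap ε (T ^ (k * (m + r + 1))) (eval e a i j) (eval e' a i j) := by
  induction a with
  | K nw b =>
    refine ⟨1, fun T ε hT h0 h1 m r e e' hM hx hy hxM hyM hW hc hm hcb hg hK i hi j hj => ?_⟩
    exact (hK nw b i hi j hj).mono h0 (pow_le_pow_right₀ (by linarith) (by omega))
  | idW nw =>
    refine ⟨0, fun T ε hT h0 h1 m r e e' hM hx hy hxM hyM hW hc hm hcb hg hK i hi j hj => ?_⟩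
    simp only [eval, hW]
    refine Ap.const h0 ?_
    split_ifs <;> simp
  | one =>
    refine ⟨0, fun T ε hT h0 h1 m r e e' hM hx hy hxM hyM hW hc hm hcb hg hK i hi j hj => ?_⟩
    simp only [eval]
    refine Ap.const h0 ?_
    split_ifs <;> simp
  | rc c =>
    refine ⟨c.deg, fun T ε hT h0 h1 m r e e' hM hx hy hxM hyM hW hc hm hcb hg hK i hi j hj => ?_⟩
    refine (hg c).mono h0 (pow_le_pow_right₀ (by linarith) ?_)
    nlinarith
  | cst c =>
    refine ⟨c.deg, fun T ε hT h0 h1 m r e e' hM hx hy hxM hyM hW hc hm hcb hg hK i hi j hj => ?_⟩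
    simp only [eval, hc]
    refine Ap.const h0 ?_
    rw [← hc]
    refine (hcb c).trans (pow_le_pow_right₀ (by linarith) ?_)
    nlinarith
  | add a b iha ihb =>
    obtain ⟨ka, iha⟩ := iha
    obtain ⟨kb, ihb⟩ := ihb
    refine ⟨ka + kb + 1, fun T ε hT h0 h1 m r e e' hM hx hy hxM hyM hW hc hm hcb hg hK i hi j hj => ?_⟩
    have ha := iha T ε hT h0 h1 m r e e' hM hx hy hxM hyM hW hc hm hcb hg hK i hi j hj
    have hb := ihb T ε hT h0 h1 m r e e' hM hx hy hxM hyM hW hc hm hcb hg hK i hi j hj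
    refine (ha.add hb).mono h0 ?_
    have hT1 : (1 : ℝ) ≤ T := by linarith
    have e1 : T ^ (ka * (m + r + 1)) ≤ T ^ ((ka + kb) * (m + r + 1)) :=
      pow_le_pow_right₀ hT1 (Nat.mul_le_mul_right _ (by omega))
    have e2 : T ^ (kb * (m + r + 1)) ≤ T ^ ((ka + kb) * (m + r + 1)) :=
      pow_le_pow_right₀ hT1 (Nat.mul_le_mul_right _ (by omega))
    have e3 : T ^ ((ka + kb) * (m + r + 1)) * T ≤ T ^ ((ka + kb + 1) * (m + r + 1)) := by
      rw [← pow_succ]
      refine pow_le_pow_right₀ hT1 ?_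
      have : (ka + kb + 1) * (m + r + 1) = (ka + kb) * (m + r + 1) + (m + r + 1) := by ring
      omega
    have e4 : 0 ≤ T ^ ((ka + kb) * (m + r + 1)) := by positivity
    nlinarith
  | mul a b iha ihb =>
    obtain ⟨ka, iha⟩ := iha
    obtain ⟨kb, ihb⟩ := ihb
    refine ⟨ka + kb + 3, fun T ε hT h0 h1 m r e e' hM hx hy hxM hyM hW hc hm hcb hg hK i hi j hj => ?_⟩
    have ha := iha T ε hT h0 h1 m r e e' hM hx hy hxM hyM hW hc hm hcb hg hK
    have hb := ihb T ε hT h0 h1 m r e e' hM hx hy hxM hyM hW hc hm hcb hg hK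
    have h2 := Ap.sum (fun k hk => (ha i hi k hk).mul h0 h1 (hb k hk j hj))
    simp only [eval]
    rw [← hM]
    refine h2.mono h0 ?_
    have hT1 : (1 : ℝ) ≤ T := by linarith
    have e4 : 0 ≤ T ^ ((ka + kb) * (m + r + 1)) := by positivity
    have e5 : (3 : ℝ) ≤ T ^ 2 := by nlinarith
    calc (e.M : ℝ) * (3 * (T ^ (ka * (m + r + 1)) * T ^ (kb * (m + r + 1))))
        = (e.M : ℝ) * 3 * T ^ ((ka + kb) * (m + r + 1)) := by rw [add_mul, pow_add]; ring
      _ ≤ T ^ m * T ^ 2 * T ^ ((ka + kb) * (m + r + 1)) := by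
          refine mul_le_mul_of_nonneg_right ?_ e4
          exact mul_le_mul hm e5 (by norm_num) (by positivity)
      _ = T ^ (m + 2 + (ka + kb) * (m + r + 1)) := by rw [pow_add, pow_add]
      _ ≤ T ^ ((ka + kb + 3) * (m + r + 1)) := by
          refine pow_le_pow_right₀ hT1 ?_
          have : (ka + kb + 3) * (m + r + 1) = (ka + kb) * (m + r + 1) + 3 * (m + r + 1) := by
            ring
          omega
  | had a b iha ihb =>
    obtain ⟨ka, iha⟩ := iha
    obtain ⟨kb, ihb⟩ := ihb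
    refine ⟨ka + kb + 2, fun T ε hT h0 h1 m r e e' hM hx hy hxM hyM hW hc hm hcb hg hK i hi j hj => ?_⟩
    have ha := iha T ε hT h0 h1 m r e e' hM hx hy hxM hyM hW hc hm hcb hg hK i hi j hj
    have hb := ihb T ε hT h0 h1 m r e e' hM hx hy hxM hyM hW hc hm hcb hg hK i hi j hj
    refine (ha.mul h0 h1 hb).mono h0 ?_
    have hT1 : (1 : ℝ) ≤ T := by linarith
    have e4 : 0 ≤ T ^ ((ka + kb) * (m + r + 1)) := by positivity
    have e5 : (3 : ℝ) ≤ T ^ 2 := by nlinarith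
    calc 3 * (T ^ (ka * (m + r + 1)) * T ^ (kb * (m + r + 1)))
        = 3 * T ^ ((ka + kb) * (m + r + 1)) := by rw [add_mul, pow_add]
      _ ≤ T ^ 2 * T ^ ((ka + kb) * (m + r + 1)) := mul_le_mul_of_nonneg_right e5 e4
      _ = T ^ (2 + (ka + kb) * (m + r + 1)) := by rw [pow_add]
      _ ≤ T ^ ((ka + kb + 2) * (m + r + 1)) := by
          refine pow_le_pow_right₀ hT1 ?_
          have : (ka + kb + 2) * (m + r + 1) = (ka + kb) * (m + r + 1) + 2 * (m + r + 1) := by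
            ring
          omega
  | pos a iha =>
    obtain ⟨ka, iha⟩ := iha
    refine ⟨ka, fun T ε hT h0 h1 m r e e' hM hx hy hxM hyM hW hc hm hcb hg hK i hi j hj => ?_⟩
    exact (iha T ε hT h0 h1 m r e e' hM hx hy hxM hyM hW hc hm hcb hg hK i hi j hj).max_zero
  | tr a iha =>
    obtain ⟨ka, iha⟩ := iha
    refine ⟨ka + 1, fun T ε hT h0 h1 m r e e' hM hx hy hxM hyM hW hc hm hcb hg hK i hi j hj => ?_⟩
    have ha := iha T ε hT h0 h1 m r e e' hM hx hy hxM hyM hW hc hm hcb hg hK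
    have h2 := Ap.sum (fun k hk => ha k hk k hk)
    simp only [eval]
    rw [← hM]
    refine h2.mono h0 ?_
    have hT1 : (1 : ℝ) ≤ T := by linarith
    have e4 : 0 ≤ T ^ (ka * (m + r + 1)) := by positivity
    calc (e.M : ℝ) * T ^ (ka * (m + r + 1)) ≤ T ^ m * T ^ (ka * (m + r + 1)) :=
          mul_le_mul_of_nonneg_right hm e4
      _ = T ^ (m + ka * (m + r + 1)) := by rw [pow_add]
      _ ≤ T ^ ((ka + 1) * (m + r + 1)) := by
          refine pow_le_pow_right₀ hT1 ?_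
          have : (ka + 1) * (m + r + 1) = ka * (m + r + 1) + (m + r + 1) := by ring
          omega
  | pick p q a iha =>
    obtain ⟨ka, iha⟩ := iha
    refine ⟨ka, fun T ε hT h0 h1 m r e e' hM hx hy hxM hyM hW hc hm hcb hg hK i hi j hj => ?_⟩
    have ha := iha T ε hT h0 h1 m r e e' hM hx hy hxM hyM hW hc hm hcb hg hK
    simp only [eval]
    rw [← hx, ← hy]
    refine ha _ ?_ _ ?_
    · split_ifs <;> assumption
    · split_ifs <;> assumption

end Crest.Agent.R062.Mach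
end

-- ▼ part R062/MachQ
section

/-!
# R62: the machine, rational matrices as lists and poly-time evaluation of expressions
-/

set_option autoImplicit false

namespace Crest.Agent.R062.Mach

open Crest.Agent.Lib.PT

/-- matrices stored as lists of rows -/
abbrev LM := List (List ℚ)

/-- access -/
def get (A : LM) (i j : ℕ) : ℚ := (A.getD i []).getD j 0

/-- tabulation -/
def tab (M : ℕ) (f : ℕ → ℕ → ℚ) : LM := (List.range M).map (fun i => (List.range M).map (f i))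

theorem get_tab {M : ℕ} {f : ℕ → ℕ → ℚ} {i j : ℕ} (hi : i < M) (hj : j < M) :
    get (tab M f) i j = f i j := by
  simp [get, tab, List.getD_eq_getElem?_getD, hi, hj]

theorem getD_min {α : Type} (l : List α) (i : ℕ) (d : α) :
    l.getD (min i l.length) d = l.getD i d := by
  rcases le_or_gt l.length i with h | h
  · rw [min_eq_right h, List.getD_eq_getElem?_getD, List.getD_eq_getElem?_getD,
      List.getElem?_eq_none le_rfl, List.getElem?_eq_none h]
  · rw [min_eq_left h.le]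

section ptf

variable {γ : Type} [PTCode γ]

theorem ptf_getD' {α : Type} [PTCode α] {l : γ → List α} {i : γ → ℕ} {d : γ → α} (hl : PTF l)
    (hi : PTF i) (hd : PTF d) : PTF (fun c => (l c).getD (i c) (d c)) := by
  refine (PTF.getD (n := fun c => min (i c) (l c).length)
    (PTF.natMinUn hi (PTU.length hl)) hl hd).of_eq (fun c => getD_min _ _ _)

theorem ptf_get {A : γ → LM} {i j : γ → ℕ} (hA : PTF A) (hi : PTF i) (hj : PTF j) :
    PTF (fun c => get (A c) (i c) (j c)) :=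
  ptf_getD' (ptf_getD' hA hi (PTF.const [])) hj (PTF.const 0)

theorem ptf_tab {M : γ → ℕ} (hM : PTU M) {f : γ → ℕ → ℕ → ℚ}
    (hf : PTF (fun p : (γ × ℕ) × ℕ => f p.1.1 p.1.2 p.2)) :
    PTF (fun c => tab (M c) (f c)) := by
  have h1 : PTU (fun p : γ × ℕ => M p.1) := PTU.comp hM PTF.fst
  have h2 : PTF (fun p : γ × ℕ => (List.range (M p.1)).map (f p.1 p.2)) :=
    PTF.tabulate (γ := γ × ℕ) (n := fun p => M p.1) (f := fun p j => f p.1 p.2 j) h1 hf
  exact PTF.tabulate (f := fun c i => (List.range (M c)).map (f c i)) hM h2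

theorem ptf_max {a b : γ → ℚ} (ha : PTF a) (hb : PTF b) : PTF (fun c => max (a c) (b c)) := by
  refine (PTF.ite (PTPred.ratLe ha hb) hb ha).of_eq (fun c => ?_)
  rw [max_def]

end ptf

/-- machine environments: `((M, x, y, N), (K⁺, K⁻, K'⁺, K'⁻), pairs, n, t)` -/
abbrev EQ := (Un × ℕ × ℕ × Un) × (LM × LM × LM × LM) × List (ℕ × ℕ) × Un × Un

namespace EQ

/-- size -/
def M (e : EQ) : ℕ := e.1.1.val
/-- stub -/
def x (e : EQ) : ℕ := e.1.2.1
/-- stub -/
def y (e : EQ) : ℕ := e.1.2.2.1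
/-- number of bits -/
def N (e : EQ) : ℕ := e.1.2.2.2.val
/-- the stored matrix -/
def K (e : EQ) (nw b : Bool) : LM :=
  if nw then (if b then e.2.1.2.2.1 else e.2.1.2.2.2) else (if b then e.2.1.1 else e.2.1.2.1)
/-- pairs -/
def l (e : EQ) : List (ℕ × ℕ) := e.2.2.1
/-- number of vertices -/
def n (e : EQ) : ℕ := e.2.2.2.1.val
/-- number of pairs -/
def t (e : EQ) : ℕ := e.2.2.2.2.val
/-- pairs before/after -/
def L (e : EQ) (nw : Bool) : List (ℕ × ℕ) := if nw then (e.x, e.y) :: e.l else e.l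

/-- the environment described by `e` -/
def env (e : EQ) : Env ℚ where
  M := e.M
  x := e.x
  y := e.y
  K := fun nw b => get (e.K nw b)
  W := fun nw i => decide (unused (e.L nw) i)
  r := fun c => c.q e.n e.N
  c := fun c => c.f e.n e.t

end EQ

/-- evaluation on stored matrices -/
def evalQ (e : EQ) : E → LM
  | .K nw b => e.K nw b
  | .idW nw => tab e.M (fun i j => if i = j ∧ unused (e.L nw) i then 1 else 0)
  | .one => tab e.M (fun i j => if i = j then 1 else 0)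
  | .rc c => tab e.M (fun _ _ => c.q e.n e.N)
  | .cst c => tab e.M (fun _ _ => c.f e.n e.t)
  | .add a b => tab e.M (fun i j => get (evalQ e a) i j + get (evalQ e b) i j)
  | .mul a b => tab e.M (fun i j =>
      ∑ k ∈ Finset.range e.M, get (evalQ e a) i k * get (evalQ e b) k j)
  | .had a b => tab e.M (fun i j => get (evalQ e a) i j * get (evalQ e b) i j)
  | .pos a => tab e.M (fun i j => max (get (evalQ e a) i j) 0)
  | .tr a => tab e.M (fun _ _ => ∑ k ∈ Finset.range e.M, get (evalQ e a) k k)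
  | .pick p q a => tab e.M (fun _ _ =>
      get (evalQ e a) (if p then e.y else e.x) (if q then e.y else e.x))

theorem get_evalQ (e : EQ) (hx : e.x < e.M) (hy : e.y < e.M) (a : E) :
    ∀ i < e.M, ∀ j < e.M, get (evalQ e a) i j = eval e.env a i j := by
  induction a with
  | K nw b => intro i hi j hj; rfl
  | idW nw => intro i hi j hj; simp [evalQ, eval, get_tab hi hj, EQ.env]
  | one => intro i hi j hj; simp [evalQ, eval, get_tab hi hj]
  | rc c => intro i hi j hj; simp [evalQ, eval, get_tab hi hj, EQ.env]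
  | cst c => intro i hi j hj; simp [evalQ, eval, get_tab hi hj, EQ.env]
  | add a b iha ihb =>
    intro i hi j hj
    simp only [evalQ, eval]
    rw [get_tab hi hj, iha i hi j hj, ihb i hi j hj]
  | mul a b iha ihb =>
    intro i hi j hj
    simp only [evalQ, eval]
    rw [get_tab hi hj]
    refine Finset.sum_congr rfl (fun k hk => ?_)
    have hk := Finset.mem_range.1 hk
    rw [iha i hi k hk, ihb k hk j hj]
  | had a b iha ihb =>
    intro i hi j hj
    simp only [evalQ, eval]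
    rw [get_tab hi hj, iha i hi j hj, ihb i hi j hj]
  | pos a iha =>
    intro i hi j hj
    simp only [evalQ, eval]
    rw [get_tab hi hj, iha i hi j hj]
  | tr a iha =>
    intro i hi j hj
    simp only [evalQ, eval]
    rw [get_tab hi hj]
    refine Finset.sum_congr rfl (fun k hk => ?_)
    have hk := Finset.mem_range.1 hk
    rw [iha k hk k hk]
  | pick p q a iha =>
    intro i hi j hj
    simp only [evalQ, eval]
    rw [get_tab hi hj]
    refine iha _ ?_ _ ?_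
    · split_ifs <;> assumption
    · split_ifs <;> assumption

/-! ### poly-time -/

theorem ptu_M : PTU EQ.M := PTU.val (f := fun e : EQ => e.1.1) (by fun_prop)
theorem ptf_x : PTF EQ.x := by unfold EQ.x; fun_prop
theorem ptf_y : PTF EQ.y := by unfold EQ.y; fun_prop
theorem ptf_l : PTF EQ.l := by unfold EQ.l; fun_prop
theorem ptf_K (nw b : Bool) : PTF (fun e : EQ => e.K nw b) := by
  cases nw <;> cases b <;> simp only [EQ.K, if_true, if_false, Bool.false_eq_true] <;> fun_prop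
theorem ptf_L (nw : Bool) : PTF (fun e : EQ => e.L nw) := by
  have hx := ptf_x
  have hy := ptf_y
  have hl := ptf_l
  cases nw <;> simp only [EQ.L, if_true, if_false, Bool.false_eq_true]
  · exact hl
  · exact PTF.listCons (PTF.prodMk hx hy) hl

theorem ptf_unused {γ : Type} [PTCode γ] {l : γ → List (ℕ × ℕ)} {i : γ → ℕ} (hl : PTF l)
    (hi : PTF i) : PTPred (fun c => unused (l c) (i c)) := by
  unfold unused
  refine PTPred.forall_mem (p := fun c (p : ℕ × ℕ) => p.1 ≠ i c ∧ p.2 ≠ i c) hl ?_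
  have h1 : PTPred (fun q : γ × (ℕ × ℕ) => q.2.1 = i q.1) :=
    PTPred.natEq (f := fun q : γ × (ℕ × ℕ) => q.2.1) (g := fun q => i q.1) (by fun_prop)
      (PTF.comp hi PTF.fst)
  have h2 : PTPred (fun q : γ × (ℕ × ℕ) => q.2.2 = i q.1) :=
    PTPred.natEq (f := fun q : γ × (ℕ × ℕ) => q.2.2) (g := fun q => i q.1) (by fun_prop)
      (PTF.comp hi PTF.fst)
  exact PTPred.and (PTPred.not h1) (PTPred.not h2)

theorem ptf_evalQ (a : E) : PTF (fun e : EQ => evalQ e a) := by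
  have hM := ptu_M
  induction a with
  | K nw b => exact ptf_K nw b
  | idW nw =>
    refine ptf_tab (f := fun e i j => if i = j ∧ unused (e.L nw) i then 1 else 0) hM ?_
    refine PTF.ite (PTPred.and (PTPred.natEq (by fun_prop) (by fun_prop)) ?_) (PTF.const 1)
      (PTF.const 0)
    exact ptf_unused (l := fun p : (EQ × ℕ) × ℕ => p.1.1.L nw) (i := fun p => p.1.2)
      (PTF.comp (ptf_L nw) (by fun_prop)) (by fun_prop)
  | one =>
    refine ptf_tab (f := fun e i j => if i = j then 1 else 0) hM ?_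
    exact PTF.ite (PTPred.natEq (by fun_prop) (by fun_prop)) (PTF.const 1) (PTF.const 0)
  | rc c =>
    refine ptf_tab (f := fun e i j => c.q e.n e.N) hM ?_
    exact PTF.comp c.ptf (f := fun p : (EQ × ℕ) × ℕ => (p.1.1.2.2.2.1, p.1.1.1.2.2.2))
      (by fun_prop)
  | cst c =>
    refine ptf_tab (f := fun e i j => c.f e.n e.t) hM ?_
    exact PTF.comp c.ptf (f := fun p : (EQ × ℕ) × ℕ => p.1.1.2.2.2) (by fun_prop)
  | add a b iha ihb =>
    refine ptf_tab (f := fun e i j => get (evalQ e a) i j + get (evalQ e b) i j) hM ?_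
    have h1 : PTF (fun p : (EQ × ℕ) × ℕ => evalQ p.1.1 a) := PTF.comp iha (by fun_prop)
    have h2 : PTF (fun p : (EQ × ℕ) × ℕ => evalQ p.1.1 b) := PTF.comp ihb (by fun_prop)
    exact PTF.ratAdd (ptf_get h1 (by fun_prop) (by fun_prop))
      (ptf_get h2 (by fun_prop) (by fun_prop))
  | mul a b iha ihb =>
    refine ptf_tab (f := fun e i j =>
      ∑ k ∈ Finset.range e.M, get (evalQ e a) i k * get (evalQ e b) k j) hM ?_
    refine PTF.ratSumRange (n := fun p : (EQ × ℕ) × ℕ => p.1.1.M)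
      (f := fun p k => get (evalQ p.1.1 a) p.1.2 k * get (evalQ p.1.1 b) k p.2)
      (PTU.comp hM (by fun_prop)) ?_
    have h1 : PTF (fun p : ((EQ × ℕ) × ℕ) × ℕ => evalQ p.1.1.1 a) :=
      PTF.comp iha (by fun_prop)
    have h2 : PTF (fun p : ((EQ × ℕ) × ℕ) × ℕ => evalQ p.1.1.1 b) :=
      PTF.comp ihb (by fun_prop)
    exact PTF.ratMul (ptf_get h1 (by fun_prop) (by fun_prop))
      (ptf_get h2 (by fun_prop) (by fun_prop))
  | had a b iha ihb =>
    refine ptf_tab (f := fun e i j => get (evalQ e a) i j * get (evalQ e b) i j) hM ?_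
    have h1 : PTF (fun p : (EQ × ℕ) × ℕ => evalQ p.1.1 a) := PTF.comp iha (by fun_prop)
    have h2 : PTF (fun p : (EQ × ℕ) × ℕ => evalQ p.1.1 b) := PTF.comp ihb (by fun_prop)
    exact PTF.ratMul (ptf_get h1 (by fun_prop) (by fun_prop))
      (ptf_get h2 (by fun_prop) (by fun_prop))
  | pos a iha =>
    refine ptf_tab (f := fun e i j => max (get (evalQ e a) i j) 0) hM ?_
    have h1 : PTF (fun p : (EQ × ℕ) × ℕ => evalQ p.1.1 a) := PTF.comp iha (by fun_prop)
    exact ptf_max (ptf_get h1 (by fun_prop) (by fun_prop)) (PTF.const 0)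
  | tr a iha =>
    refine ptf_tab (f := fun e i j => ∑ k ∈ Finset.range e.M, get (evalQ e a) k k) hM ?_
    refine PTF.ratSumRange (n := fun p : (EQ × ℕ) × ℕ => p.1.1.M)
      (f := fun p k => get (evalQ p.1.1 a) k k)
      (PTU.comp hM (by fun_prop)) ?_
    have h1 : PTF (fun p : ((EQ × ℕ) × ℕ) × ℕ => evalQ p.1.1.1 a) :=
      PTF.comp iha (by fun_prop)
    exact ptf_get h1 (by fun_prop) (by fun_prop)
  | pick p q a iha =>
    refine ptf_tab (f := fun e i j =>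
      get (evalQ e a) (if p then e.y else e.x) (if q then e.y else e.x)) hM ?_
    have h1 : PTF (fun p : (EQ × ℕ) × ℕ => evalQ p.1.1 a) := PTF.comp iha (by fun_prop)
    have hx : PTF (fun p : (EQ × ℕ) × ℕ => p.1.1.x) := PTF.comp ptf_x (by fun_prop)
    have hy : PTF (fun p : (EQ × ℕ) × ℕ => p.1.1.y) := PTF.comp ptf_y (by fun_prop)
    refine ptf_get h1 ?_ ?_
    · cases p
      · simpa using hx
      · simpa using hy
    · cases q
      · simpa using hx
      · simpa using hy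

/-! ### casting to the reals -/

/-- the real environment of a rational one -/
noncomputable def Env.cast (e : Env ℚ) : Env ℝ where
  M := e.M
  x := e.x
  y := e.y
  K := fun nw b i j => (e.K nw b i j : ℝ)
  W := e.W
  r := fun c => (e.r c : ℝ)
  c := fun c => (e.c c : ℝ)

theorem eval_cast (e : Env ℚ) (a : E) (i j : ℕ) :
    ((eval e a i j : ℚ) : ℝ) = eval e.cast a i j := by
  induction a generalizing i j with
  | K nw b => rfl
  | idW nw =>
    change (((if i = j ∧ e.W nw i = true then (1 : ℚ) else 0) : ℚ) : ℝ) =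
      if i = j ∧ e.W nw i = true then (1 : ℝ) else 0
    split_ifs <;> simp
  | one => simp only [eval]; split_ifs <;> simp
  | rc c => rfl
  | cst c => rfl
  | add a b iha ihb => simp only [eval, Rat.cast_add, iha, ihb]
  | mul a b iha ihb =>
    simp only [eval, Rat.cast_sum, Rat.cast_mul, iha, ihb]
    rfl
  | had a b iha ihb => simp only [eval, Rat.cast_mul, iha, ihb]
  | pos a iha => simp only [eval, Rat.cast_max, iha, Rat.cast_zero]
  | tr a iha => simp only [eval, Rat.cast_sum, iha]; rfl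
  | pick p q a iha => simp only [eval, iha]; rfl

end Crest.Agent.R062.Mach
private theorem rz_78f85dd26f : type_of% @_root_.Crest.Agent.R062.Mach.evalQ.eq_def := @_root_.Crest.Agent.R062.Mach.evalQ.eq_def -- L98
private theorem rz_e2a46f02fc : type_of% @_root_.Crest.Agent.R062.Mach.evalQ.eq_1 := @_root_.Crest.Agent.R062.Mach.evalQ.eq_1 -- L98
end

-- ▼ part R062/MachRun
section

/-!
# R62: the machine, the greedy run (definitions and poly-time)
-/

set_option autoImplicit false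

namespace Crest.Agent.R062.Mach

open Crest.Agent.Lib.PT

/-- rounding to multiples of `2^-N`, clamped to `[-2^N, 2^N]` -/
def rc (N : ℕ) (q : ℚ) : ℚ :=
  mkRat (max (-((4 ^ N : ℕ) : ℤ)) (min ((4 ^ N : ℕ) : ℤ) ⌊q * ((2 ^ N : ℕ) : ℚ)⌋)) (2 ^ N)

/-- number of bits -/
def bits (κ n : ℕ) : ℕ := κ * (n + 2) ^ 2

/-- the state of the machine -/
abbrev S := List (ℕ × ℕ) × LM × LM

/-- updated stored matrix -/
def newK (N M : ℕ) (b : Bool) (A : LM) (x y : ℕ) : LM :=
  tab M (fun i j => rc N (upd (sg b) (get A) x y i j))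

/-- initial stored matrix -/
def initK (P : Par) (d N n : ℕ) (b : Bool) : LM :=
  tab (n * d) (fun i j => rc N (K0 (P.gam.q n N) (sg b) (P.mu.q n N) n d i j))

/-- the machine environment for the proposal `p` -/
def mkEQ (d κ n : ℕ) (s : S) (p : ℕ × ℕ) : EQ :=
  ((Un.mk (n * d), p.1, p.2, Un.mk (bits κ n)),
    (s.2.1, s.2.2, newK (bits κ n) (n * d) true s.2.1 p.1 p.2,
      newK (bits κ n) (n * d) false s.2.2 p.1 p.2),
    s.1, Un.mk n, Un.mk s.1.length)

/-- the test: the (rounded) determinants are bounded away from zero and all (rounded)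
constraints hold with margin `1 / (2 (n+2)^c)` -/
def Test (d κ c n : ℕ) (cs : List E) (s : S) (p : ℕ × ℕ) : Prop :=
  (3 / 16 ≤ Del (sg true : ℚ) (get s.2.1) p.1 p.2 ∧
    3 / 16 ≤ Del (sg false : ℚ) (get s.2.2) p.1 p.2) ∧
  ∀ a ∈ cs, ∀ i < n * d, ∀ j < n * d,
    get (evalQ (mkEQ d κ n s p) a) i j * (2 * ((n + 2) ^ c : ℕ)) ≤ -1

instance (d κ c n : ℕ) (cs : List E) (s : S) (p : ℕ × ℕ) : Decidable (Test d κ c n cs s p) := by
  unfold Test; infer_instance

/-- candidates -/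
def cands (M : ℕ) : List (ℕ × ℕ) :=
  (List.range M).flatMap (fun x => (List.range M).map (fun y => (x, y)))

theorem mem_cands {M : ℕ} {p : ℕ × ℕ} : p ∈ cands M ↔ p.1 < M ∧ p.2 < M := by
  obtain ⟨x, y⟩ := p
  simp [cands]

/-- the chosen pair -/
def choice (d κ c n : ℕ) (cs : List E) (s : S) : Option (ℕ × ℕ) :=
  (cands (n * d)).find? (fun p => decide (Pairs.Adm d n s.1 p ∧ Test d κ c n cs s p))

/-- one step -/
def step (d κ c n : ℕ) (cs : List E) (s : S) : S :=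
  match choice d κ c n cs s with
  | none => s
  | some p => (p :: s.1, newK (bits κ n) (n * d) true s.2.1 p.1 p.2,
      newK (bits κ n) (n * d) false s.2.2 p.1 p.2)

/-- initial state -/
def init (P : Par) (d κ n : ℕ) : S :=
  ([], initK P d (bits κ n) n true, initK P d (bits κ n) n false)

/-- state after `t` steps -/
def run (P : Par) (d κ c n : ℕ) (cs : List E) (t : ℕ) : S :=
  (step d κ c n cs)^[t] (init P d κ n)

/-! ### poly-time -/

section ptf

variable {γ : Type} [PTCode γ]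

theorem ptu_bits (κ : ℕ) {n : γ → ℕ} (hn : PTU n) : PTU (fun c => bits κ (n c)) := by
  unfold bits
  exact PTU.mul (PTU.const κ) (PTU.pow (PTU.add hn (PTU.const 2)) 2)

theorem ptf_rc {N : γ → ℕ} {q : γ → ℚ} (hN : PTU N) (hq : PTF q) :
    PTF (fun c => rc (N c) (q c)) := by
  unfold rc
  have h4 : PTF (fun c => 4 ^ N c) := PTF.natPow (PTF.const 4) hN
  have h2 : PTF (fun c => 2 ^ N c) := PTF.natPow (PTF.const 2) hN
  have h4' : PTF (fun c => ((4 ^ N c : ℕ) : ℤ)) := PTF.intNatCast h4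
  refine PTF.ratMk (PTF.intMax (PTF.intNeg h4') (PTF.intMin h4' ?_)) h2
  exact PTF.ratFloor (PTF.ratMul hq (PTF.ratNatCast h2))

theorem ptf_Del (b : Bool) {A : γ → LM} {x y : γ → ℕ} (hA : PTF A) (hx : PTF x) (hy : PTF y) :
    PTF (fun c => Del (sg b : ℚ) (get (A c)) (x c) (y c)) := by
  unfold Del
  have hxy := ptf_get hA hx hy
  have hxx := ptf_get hA hx hx
  have hyy := ptf_get hA hy hy
  exact PTF.ratSub (PTF.ratPowConst (PTF.ratSub (PTF.const 1)
    (PTF.ratMul (PTF.const _) hxy)) 2) (PTF.ratMul hxx hyy)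

theorem ptf_updNum (b : Bool) {A : γ → LM} {x y i j : γ → ℕ} (hA : PTF A) (hx : PTF x)
    (hy : PTF y) (hi : PTF i) (hj : PTF j) :
    PTF (fun c => updNum (sg b : ℚ) (get (A c)) (x c) (y c) (i c) (j c)) := by
  unfold updNum
  have hxy := ptf_get hA hx hy
  have hxx := ptf_get hA hx hx
  have hyy := ptf_get hA hy hy
  have hix := ptf_get hA hi hx
  have hxj := ptf_get hA hx hj
  have hiy := ptf_get hA hi hy
  have hyj := ptf_get hA hy hj
  exact PTF.ratAdd (PTF.ratAdd (PTF.ratMul hyy (PTF.ratMul hix hxj))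
    (PTF.ratMul hxx (PTF.ratMul hiy hyj)))
    (PTF.ratMul (PTF.ratMul (PTF.const _) (PTF.ratSub (PTF.const 1)
      (PTF.ratMul (PTF.const _) hxy)))
      (PTF.ratAdd (PTF.ratMul hix hyj) (PTF.ratMul hiy hxj)))

theorem ptf_upd (b : Bool) {A : γ → LM} {x y i j : γ → ℕ} (hA : PTF A) (hx : PTF x)
    (hy : PTF y) (hi : PTF i) (hj : PTF j) :
    PTF (fun c => upd (sg b : ℚ) (get (A c)) (x c) (y c) (i c) (j c)) := by
  unfold upd
  refine PTF.ite ?_ (PTF.const 0) (PTF.ratAdd (ptf_get hA hi hj)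
    (PTF.ratDiv (ptf_updNum b hA hx hy hi hj) (ptf_Del b hA hx hy)))
  exact PTPred.or (PTPred.natEq hi hx) (PTPred.or (PTPred.natEq hi hy)
    (PTPred.or (PTPred.natEq hj hx) (PTPred.natEq hj hy)))

theorem ptf_newK (b : Bool) {N M : γ → ℕ} {A : γ → LM} {x y : γ → ℕ} (hN : PTU N) (hM : PTU M)
    (hA : PTF A) (hx : PTF x) (hy : PTF y) :
    PTF (fun c => newK (N c) (M c) b (A c) (x c) (y c)) := by
  unfold newK
  refine ptf_tab (f := fun c i j => rc (N c) (upd (sg b) (get (A c)) (x c) (y c) i j)) hM ?_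
  refine ptf_rc (PTU.comp hN (f := fun p : (γ × ℕ) × ℕ => p.1.1) (by fun_prop)) ?_
  exact ptf_upd b (A := fun p : (γ × ℕ) × ℕ => A p.1.1) (x := fun p => x p.1.1)
    (y := fun p => y p.1.1) (i := fun p => p.1.2) (j := fun p => p.2)
    (PTF.comp hA (by fun_prop)) (PTF.comp hx (by fun_prop)) (PTF.comp hy (by fun_prop))
    (by fun_prop) (by fun_prop)

theorem ptf_K0 (d : ℕ) (b : Bool) {n : γ → ℕ} {g m : γ → ℚ} {i j : γ → ℕ} (hn : PTU n)
    (hg : PTF g) (hm : PTF m) (hi : PTF i) (hj : PTF j) :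
    PTF (fun c => K0 (g c) (sg b : ℚ) (m c) (n c) d (i c) (j c)) := by
  unfold K0
  have hn' : PTF n := PTU.toPTF hn
  have hnd : PTF (fun c => n c * d) := PTF.natMul hn' (PTF.const d)
  have hdd : PTF (fun c => i c / d) := PTF.natDiv hi (PTF.const d)
  have hdj : PTF (fun c => j c / d) := PTF.natDiv hj (PTF.const d)
  have hnq : PTF (fun c => ((n c : ℕ) : ℚ)) := PTF.ratNatCast hn'
  refine PTF.ite (PTPred.and (PTPred.natLt hi hnd) (PTPred.natLt hj hnd)) ?_ (PTF.const 0)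
  refine PTF.ratSub (PTF.ratAdd (PTF.ratSub (PTF.ite (PTPred.natEq hdd hdj) hm (PTF.const 0))
    (PTF.ite (PTPred.natEq hi hj) hg (PTF.const 0))) ?_) (PTF.ratDiv hm hnq)
  exact PTF.ratDiv (PTF.ratAdd hg (PTF.const _)) (PTF.ratMul hnq (PTF.const _))

theorem ptf_RC (c : RC) {n N : γ → ℕ} (hn : PTU n) (hN : PTU N) :
    PTF (fun a => c.q (n a) (N a)) :=
  PTF.comp c.ptf (f := fun a => (Un.mk (n a), Un.mk (N a))) (PTF.prodMk hn hN)

theorem ptf_initK (P : Par) (d κ : ℕ) (b : Bool) {n : γ → ℕ} (hn : PTU n) :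
    PTF (fun c => initK P d (bits κ (n c)) (n c) b) := by
  unfold initK
  have hN := ptu_bits κ hn
  refine ptf_tab (M := fun c => n c * d) (f := fun c i j => rc (bits κ (n c))
    (K0 (P.gam.q (n c) (bits κ (n c))) (sg b) (P.mu.q (n c) (bits κ (n c))) (n c) d i j))
    (PTU.mul hn (PTU.const d)) ?_
  have h1 : PTF (fun p : (γ × ℕ) × ℕ => p.1.1) := by fun_prop
  refine ptf_rc (PTU.comp hN (f := fun p : (γ × ℕ) × ℕ => p.1.1) h1) ?_
  exact ptf_K0 d b (n := fun p : (γ × ℕ) × ℕ => n p.1.1)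
    (g := fun p => P.gam.q (n p.1.1) (bits κ (n p.1.1)))
    (m := fun p => P.mu.q (n p.1.1) (bits κ (n p.1.1))) (i := fun p => p.1.2) (j := fun p => p.2)
    (PTU.comp hn h1) (PTF.comp (ptf_RC P.gam hn hN) h1) (PTF.comp (ptf_RC P.mu hn hN) h1)
    (by fun_prop) (by fun_prop)

theorem ptf_init (P : Par) (d κ : ℕ) {n : γ → ℕ} (hn : PTU n) :
    PTF (fun c => init P d κ (n c)) := by
  unfold init
  exact PTF.prodMk (PTF.const []) (PTF.prodMk (ptf_initK P d κ true hn)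
    (ptf_initK P d κ false hn))

theorem ptf_cands {M : γ → ℕ} (hM : PTU M) : PTF (fun c => cands (M c)) := by
  unfold cands
  refine PTF.flatMap (PTF.range hM) ?_
  refine PTF.map (γ := γ × ℕ) (l := fun p => List.range (M p.1)) (f := fun p y => (p.2, y))
    (PTF.range (PTU.comp hM (by fun_prop))) (by pt_prop)

theorem ptf_mkEQ (d κ : ℕ) {n : γ → ℕ} {s : γ → S} {p : γ → ℕ × ℕ} (hn : PTU n) (hs : PTF s)
    (hp : PTF p) : PTF (fun c => mkEQ d κ (n c) (s c) (p c)) := by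
  unfold mkEQ
  have hN := ptu_bits κ hn
  have hM : PTU (fun c => n c * d) := PTU.mul hn (PTU.const d)
  have h1 : PTF (fun c => (s c).1) := by fun_prop
  have h2 : PTF (fun c => (s c).2.1) := by fun_prop
  have h3 : PTF (fun c => (s c).2.2) := by fun_prop
  have hx : PTF (fun c => (p c).1) := by fun_prop
  have hy : PTF (fun c => (p c).2) := by fun_prop
  refine PTF.prodMk (PTF.prodMk hM (PTF.prodMk hx (PTF.prodMk hy hN))) ?_
  refine PTF.prodMk (PTF.prodMk h2 (PTF.prodMk h3 (PTF.prodMk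
    (ptf_newK true hN hM h2 hx hy) (ptf_newK false hN hM h3 hx hy)))) ?_
  exact PTF.prodMk h1 (PTF.prodMk hn (PTU.length h1))

theorem ptf_Test (d κ k : ℕ) (cs : List E) {n : γ → ℕ} {s : γ → S} {p : γ → ℕ × ℕ} (hn : PTU n)
    (hs : PTF s) (hp : PTF p) : PTPred (fun c => Test d κ k (n c) cs (s c) (p c)) := by
  unfold Test
  have hM : PTU (fun c => n c * d) := PTU.mul hn (PTU.const d)
  have he := ptf_mkEQ d κ hn hs hp
  have hx : PTF (fun c => (p c).1) := by fun_prop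
  have hy : PTF (fun c => (p c).2) := by fun_prop
  have hd1 := ptf_Del true (A := fun c => (s c).2.1) (by fun_prop) hx hy
  have hd2 := ptf_Del false (A := fun c => (s c).2.2) (by fun_prop) hx hy
  refine PTPred.and (PTPred.and (PTPred.ratLe (PTF.const _) hd1)
    (PTPred.ratLe (PTF.const _) hd2)) ?_
  induction cs with
  | nil => exact (PTPred.const True).of_iff (fun c => by simp)
  | cons a cs ih =>
    have h1 : PTPred (fun c => ∀ i < n c * d, ∀ j < n c * d,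
        get (evalQ (mkEQ d κ (n c) (s c) (p c)) a) i j * (2 * ((n c + 2) ^ k : ℕ)) ≤ -1) := by
      refine PTPred.forall_lt hM ?_
      refine PTPred.forall_lt (n := fun q : γ × ℕ => n q.1 * d)
        (p := fun q j => get (evalQ (mkEQ d κ (n q.1) (s q.1) (p q.1)) a) q.2 j *
          (2 * ((n q.1 + 2) ^ k : ℕ)) ≤ -1) (PTU.comp hM (by fun_prop)) ?_
      have he' : PTF (fun q : (γ × ℕ) × ℕ =>
          evalQ (mkEQ d κ (n q.1.1) (s q.1.1) (p q.1.1)) a) :=
        PTF.comp (PTF.comp (ptf_evalQ a) he) (f := fun q : (γ × ℕ) × ℕ => q.1.1) (by fun_prop)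
      have hnn : PTF (fun q : (γ × ℕ) × ℕ => (((n q.1.1 + 2) ^ k : ℕ) : ℚ)) := by
        refine PTF.ratNatCast (PTF.natPowConst (PTF.natAdd ?_ (PTF.const 2)) k)
        exact PTF.comp (PTU.toPTF hn) (by fun_prop)
      exact PTPred.ratLe (PTF.ratMul (ptf_get he' (by fun_prop) (by fun_prop))
        (PTF.ratMul (PTF.const 2) hnn)) (PTF.const (-1))
    refine (PTPred.and h1 ih).of_iff (fun c => ?_)
    simp only [List.mem_cons, forall_eq_or_imp]

theorem ptf_choice (d κ k : ℕ) (cs : List E) {n : γ → ℕ} {s : γ → S} (hn : PTU n)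
    (hs : PTF s) : PTF (fun c => choice d κ k (n c) cs (s c)) := by
  unfold choice
  have hM : PTU (fun c => n c * d) := PTU.mul hn (PTU.const d)
  refine PTF.find? (p := fun c (p : ℕ × ℕ) =>
    decide (Pairs.Adm d (n c) (s c).1 p ∧ Test d κ k (n c) cs (s c) p)) (ptf_cands hM) ?_
  refine PTPred.toPTF (p := fun q : γ × (ℕ × ℕ) => Pairs.Adm d (n q.1) (s q.1).1 q.2 ∧
    Test d κ k (n q.1) cs (s q.1) q.2) (PTPred.and ?_ ?_)
  · exact EndPT.pt_adm d (PTU.comp hn PTF.fst) (P := fun q : γ × (ℕ × ℕ) => (s q.1).1)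
      (PTF.comp (g := fun s : S => s.1) (by fun_prop) (PTF.comp hs PTF.fst)) PTF.snd
  · exact ptf_Test d κ k cs (γ := γ × (ℕ × ℕ)) (n := fun q => n q.1) (s := fun q => s q.1)
      (p := fun q => q.2) (PTU.comp hn PTF.fst) (PTF.comp hs PTF.fst) PTF.snd

theorem ptf_step (d κ k : ℕ) (cs : List E) {n : γ → ℕ} {s : γ → S} (hn : PTU n)
    (hs : PTF s) : PTF (fun c => step d κ k (n c) cs (s c)) := by
  unfold step
  have hM : PTU (fun c => n c * d) := PTU.mul hn (PTU.const d)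
  have hN := ptu_bits κ hn
  have h1 : PTF (fun q : γ × (ℕ × ℕ) => q.1) := PTF.fst
  have hM' : PTU (fun q : γ × (ℕ × ℕ) => n q.1 * d) := PTU.comp (n := fun c => n c * d) hM h1
  have hN' : PTU (fun q : γ × (ℕ × ℕ) => bits κ (n q.1)) :=
    PTU.comp (n := fun c => bits κ (n c)) hN h1
  have hs' : PTF (fun q : γ × (ℕ × ℕ) => s q.1) := PTF.comp hs h1
  refine (PTF.optionCasesOn (g := fun c (p : ℕ × ℕ) =>
    (p :: (s c).1, newK (bits κ (n c)) (n c * d) true (s c).2.1 p.1 p.2,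
      newK (bits κ (n c)) (n c * d) false (s c).2.2 p.1 p.2)) (ptf_choice d κ k cs hn hs) hs
      ?_).of_eq (fun c => ?_)
  · refine PTF.prodMk (PTF.listCons (by fun_prop) (by fun_prop)) (PTF.prodMk ?_ ?_)
    · exact ptf_newK true hN' hM' (by fun_prop) (by fun_prop) (by fun_prop)
    · exact ptf_newK false hN' hM' (by fun_prop) (by fun_prop) (by fun_prop)
  · rcases choice d κ k (n c) cs (s c) with _ | p <;> rfl

end ptf

end Crest.Agent.R062.Mach
end

-- ▼ part R062/MachSize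
section

/-!
# R62: the machine, sizes of the states, the run is poly-time
-/

set_option autoImplicit false

namespace Crest.Agent.R062.Mach

open Crest.Agent.Lib.PT

theorem sz_rc (N : ℕ) (q : ℚ) : sz (rc N q) ≤ 5 * N + 10 := by
  rw [sz_rat]
  have h1 : (rc N q).num.natAbs.size ≤ 2 * N + 1 := by
    rw [Nat.size_le]
    refine (Crest.Agent.Lib.PT.Arith.natAbs_num_mkRat_le _ _).trans_lt ?_
    have h2 : (max (-((4 ^ N : ℕ) : ℤ)) (min ((4 ^ N : ℕ) : ℤ) ⌊q * ((2 ^ N : ℕ) : ℚ)⌋)).natAbs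
        ≤ 4 ^ N := by
      have h4 : ∀ (a : ℕ) (z : ℤ), (max (-(a : ℤ)) (min (a : ℤ) z)).natAbs ≤ a := by
        intro a z
        omega
      exact h4 _ _
    refine h2.trans_lt ?_
    have h3 : (4 : ℕ) ^ N = 2 ^ (2 * N) := by rw [pow_mul]; norm_num
    rw [h3]
    exact Nat.pow_lt_pow_right (by norm_num) (by omega)
  have h2 : (rc N q).den.size ≤ N + 1 := by
    rw [Nat.size_le]
    have h3 : (rc N q).den ≤ 2 ^ N := by
      unfold rc
      rw [Rat.den_mkRat]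
      split_ifs with h
      · exact Nat.one_le_two_pow
      · exact Nat.div_le_self _ _
    exact h3.trans_lt (Nat.pow_lt_pow_right (by norm_num) (by omega))
  omega

theorem sz_tab_le {M B : ℕ} {f : ℕ → ℕ → ℚ} (h : ∀ i j, sz (f i j) ≤ B) :
    sz (tab M f) ≤ M * (2 * (M * (2 * B + 1)) + 1) := by
  unfold tab
  refine (sz_list_le (m := M * (2 * B + 1)) ?_).trans ?_
  · intro a ha
    obtain ⟨i, _, rfl⟩ := List.mem_map.1 ha
    refine (sz_list_le (m := B) ?_).trans ?_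
    · intro b hb
      obtain ⟨j, _, rfl⟩ := List.mem_map.1 hb
      exact h i j
    · simp
  · simp

/-- bound on the size of a stored matrix -/
def szM (N M : ℕ) : ℕ := M * (2 * (M * (2 * (5 * N + 10) + 1)) + 1)

theorem sz_newK (N M : ℕ) (b : Bool) (A : LM) (x y : ℕ) : sz (newK N M b A x y) ≤ szM N M :=
  sz_tab_le (fun _ _ => sz_rc N _)

theorem sz_initK (P : Par) (d N n : ℕ) (b : Bool) : sz (initK P d N n b) ≤ szM N (n * d) :=
  sz_tab_le (fun _ _ => sz_rc N _)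

/-- the invariant giving the size bound -/
def SzInv (d κ n : ℕ) (t : ℕ) (s : S) : Prop :=
  s.1.length ≤ t ∧ (∀ p ∈ s.1, p.1 < n * d ∧ p.2 < n * d) ∧
    sz s.2.1 ≤ szM (bits κ n) (n * d) ∧ sz s.2.2 ≤ szM (bits κ n) (n * d)

theorem choice_mem {d κ c n : ℕ} {cs : List E} {s : S} {p : ℕ × ℕ}
    (h : choice d κ c n cs s = some p) : p.1 < n * d ∧ p.2 < n * d :=
  mem_cands.1 (List.mem_of_find?_eq_some h)

theorem szInv_init (P : Par) (d κ n : ℕ) : SzInv d κ n 0 (init P d κ n) :=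
  ⟨le_rfl, by simp [init], sz_initK _ _ _ _ _, sz_initK _ _ _ _ _⟩

theorem szInv_step {d κ c n : ℕ} {cs : List E} {t : ℕ} {s : S} (h : SzInv d κ n t s) :
    SzInv d κ n (t + 1) (step d κ c n cs s) := by
  unfold step
  rcases hc : choice d κ c n cs s with _ | p
  · exact ⟨h.1.trans (Nat.le_succ t), h.2⟩
  · refine ⟨?_, ?_, sz_newK _ _ _ _ _ _, sz_newK _ _ _ _ _ _⟩
    · simp only [List.length_cons]
      exact Nat.succ_le_succ h.1
    · intro q hq
      rcases List.mem_cons.1 hq with rfl | hq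
      · exact choice_mem hc
      · exact h.2.1 q hq

theorem szInv_run (P : Par) (d κ c n : ℕ) (cs : List E) (t : ℕ) :
    SzInv d κ n t (run P d κ c n cs t) := by
  unfold run
  induction t with
  | zero => exact szInv_init P d κ n
  | succ t ih =>
    rw [Function.iterate_succ_apply']
    exact szInv_step ih

theorem sz_of_szInv {d κ n t : ℕ} {s : S} (h : SzInv d κ n t s) :
    sz s ≤ 2 * (t * (2 * (3 * (n * d) + 1) + 1)) + 1 +
      (2 * szM (bits κ n) (n * d) + 1 + szM (bits κ n) (n * d)) := by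
  obtain ⟨h1, h2, h3, h4⟩ := h
  have h5 : sz s.1 ≤ t * (2 * (3 * (n * d) + 1) + 1) := by
    refine (sz_list_le (m := 3 * (n * d) + 1) ?_).trans (Nat.mul_le_mul_right _ h1)
    intro p hp
    obtain ⟨h6, h7⟩ := h2 p hp
    have h8 := sz_nat_le p.1
    have h9 := sz_nat_le p.2
    simp only [sz_prod]
    omega
  simp only [sz_prod]
  omega

theorem pb_szM {γ : Type} [PTCode γ] {N M : γ → ℕ} (hN : PTU N) (hM : PTU M) :
    PTU (fun c => szM (N c) (M c)) := by
  unfold szM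
  exact PTU.mul hM (PTU.add (PTU.mul (PTU.const 2) (PTU.mul hM (PTU.add (PTU.mul (PTU.const 2)
    (PTU.add (PTU.mul (PTU.const 5) hN) (PTU.const 10))) (PTU.const 1)))) (PTU.const 1))

theorem ptf_run {γ : Type} [PTCode γ] (P : Par) (d κ k : ℕ) (cs : List E) {n t : γ → ℕ}
    (hn : PTU n) (ht : PTU t) : PTF (fun c => run P d κ k (n c) cs (t c)) := by
  unfold run
  have hM : PTU (fun c => n c * d) := PTU.mul hn (PTU.const d)
  have hN := ptu_bits κ hn
  have hB := pb_szM hN hM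
  have hn1 : PTU (fun q : γ × S => n q.1) := PTU.comp hn PTF.fst
  refine PTF.iterate' (f := fun c s => step d κ k (n c) cs s) ht
    (ptf_step d κ k cs (γ := γ × S) (n := fun q => n q.1) (s := fun q => q.2) hn1 PTF.snd)
    (ptf_init P d κ hn) (B := fun c => 2 * (t c * (2 * (3 * (n c * d) + 1) + 1)) + 1 +
      (2 * szM (bits κ (n c)) (n c * d) + 1 + szM (bits κ (n c)) (n c * d))) ?_ ?_
  · refine PTU.pb ?_
    refine PTU.add (PTU.add (PTU.mul (PTU.const 2) (PTU.mul ht (PTU.add (PTU.mul (PTU.const 2)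
      (PTU.add (PTU.mul (PTU.const 3) hM) (PTU.const 1))) (PTU.const 1)))) (PTU.const 1)) ?_
    exact PTU.add (PTU.add (PTU.mul (PTU.const 2) hB) (PTU.const 1)) hB
  · intro c i hi
    have h := sz_of_szInv (szInv_run P d κ k (n c) cs i)
    unfold run at h
    refine h.trans ?_
    have := Nat.mul_le_mul_right (2 * (3 * (n c * d) + 1) + 1) hi
    omega

end Crest.Agent.R062.Mach
end

-- ▼ part R062/MachCor
section

/-!
# R62: the machine, correctness
-/

set_option autoImplicit false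

namespace Crest.Agent.R062.Mach

open Crest.Agent.Lib.PT

/-! ### rounding -/

theorem rc_err {N : ℕ} {q : ℚ} (h : |q| ≤ 2 ^ N) : |rc N q - q| ≤ 1 / 2 ^ N := by
  have h2 : (0 : ℚ) < 2 ^ N := by positivity
  have h4 : (4 : ℚ) ^ N = 2 ^ N * 2 ^ N := by
    rw [← mul_pow]; norm_num
  obtain ⟨h5, h6⟩ := abs_le.1 h
  have h7 : ⌊q * ((2 ^ N : ℕ) : ℚ)⌋ ≤ ((4 ^ N : ℕ) : ℤ) := by
    have : (⌊q * ((2 ^ N : ℕ) : ℚ)⌋ : ℚ) ≤ (((4 ^ N : ℕ) : ℤ) : ℚ) := by
      refine (Int.floor_le _).trans ?_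
      push_cast
      rw [h4]
      exact mul_le_mul_of_nonneg_right h6 h2.le
    exact_mod_cast this
  have h8 : -((4 ^ N : ℕ) : ℤ) ≤ ⌊q * ((2 ^ N : ℕ) : ℚ)⌋ := by
    rw [Int.le_floor]
    push_cast
    rw [h4]
    nlinarith
  have h9 : rc N q = (⌊q * ((2 ^ N : ℕ) : ℚ)⌋ : ℚ) / 2 ^ N := by
    unfold rc
    rw [min_eq_right h7, max_eq_right h8, Rat.mkRat_eq_div]
    push_cast
    rfl
  rw [h9]
  have h10 := Int.floor_le (q * ((2 ^ N : ℕ) : ℚ))
  have h11 := Int.lt_floor_add_one (q * ((2 ^ N : ℕ) : ℚ))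
  have h12 : (⌊q * ((2 ^ N : ℕ) : ℚ)⌋ : ℚ) / 2 ^ N - q =
      ((⌊q * ((2 ^ N : ℕ) : ℚ)⌋ : ℚ) - q * 2 ^ N) / 2 ^ N := by
    field_simp
  rw [h12, abs_div, abs_of_pos h2]
  refine div_le_div_of_nonneg_right ?_ h2.le
  push_cast at h10 h11 ⊢
  rw [abs_le]
  constructor <;> linarith

theorem rc_errR {N : ℕ} {q : ℚ} (h : |(q : ℝ)| ≤ 2 ^ N) : |(rc N q : ℝ) - q| ≤ 1 / 2 ^ N := by
  have h1 : |q| ≤ 2 ^ N := by exact_mod_cast h
  have h2 : ((|rc N q - q| : ℚ) : ℝ) ≤ ((1 / 2 ^ N : ℚ) : ℝ) := Rat.cast_le.2 (rc_err h1)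
  push_cast at h2
  exact h2

/-! ### casts -/

theorem sg_cast (b : Bool) : ((sg b : ℚ) : ℝ) = sg b := by
  cases b <;> simp [sg]

theorem Del_cast (s : ℚ) (K : Mx ℚ) (x y : ℕ) :
    ((Del s K x y : ℚ) : ℝ) = Del (s : ℝ) (fun i j => (K i j : ℝ)) x y := by
  unfold Del
  push_cast
  rfl

theorem upd_cast (s : ℚ) (K : Mx ℚ) (x y i j : ℕ) :
    ((upd s K x y i j : ℚ) : ℝ) = upd (s : ℝ) (fun i j => (K i j : ℝ)) x y i j := by
  unfold upd
  split_ifs
  · simp
  · rw [Rat.cast_add, Rat.cast_div, Del_cast]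
    congr 2
    unfold updNum
    push_cast
    rfl

theorem K0_cast (g s m : ℚ) (n d i j : ℕ) :
    ((K0 g s m n d i j : ℚ) : ℝ) = K0 (g : ℝ) (s : ℝ) (m : ℝ) n d i j := by
  unfold K0
  split_ifs <;> push_cast <;> rfl

theorem abs_div_nat_le (x : ℝ) (n : ℕ) : |x / (n : ℝ)| ≤ |x| := by
  rcases Nat.eq_zero_or_pos n with rfl | h
  · simp
  · rw [abs_div, Nat.abs_cast]
    have : (1 : ℝ) ≤ n := by exact_mod_cast h
    exact div_le_self (abs_nonneg x) this

theorem K0_bd {g s m : ℝ} (hg : |g| ≤ 1) (hs : |s| ≤ 1) (hm : |m| ≤ 1) (n d i j : ℕ) :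
    |K0 g s m n d i j| ≤ 5 := by
  unfold K0
  split_ifs with h0 h1 h2 h2
  all_goals try (rw [abs_zero]; norm_num)
  all_goals
    have e1 : |(g + s) / ((n : ℝ) * (d : ℝ))| ≤ 2 := by
      have := abs_div_nat_le (g + s) (n * d)
      push_cast at this
      refine this.trans ((abs_add_le _ _).trans (by linarith))
    have e2 : |m / (n : ℝ)| ≤ 1 := (abs_div_nat_le m n).trans hm
    rw [abs_le] at *
    constructor <;> linarith [hg.1, hg.2, hm.1, hm.2, e1.1, e1.2, e2.1, e2.2]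

theorem K0_err {g m g' m' s ε : ℝ} (hg : |g' - g| ≤ ε) (hm : |m' - m| ≤ ε) (n d i j : ℕ) :
    |K0 g' s m' n d i j - K0 g s m n d i j| ≤ 4 * ε := by
  have hε : 0 ≤ ε := (abs_nonneg _).trans hg
  unfold K0
  have e1 : |(g' - g) / ((n : ℝ) * (d : ℝ))| ≤ ε := by
    have := abs_div_nat_le (g' - g) (n * d)
    push_cast at this
    exact this.trans hg
  have e2 : |(m' - m) / (n : ℝ)| ≤ ε := (abs_div_nat_le _ n).trans hm
  have e3 : (g' + s) / ((n : ℝ) * (d : ℝ)) = (g + s) / ((n : ℝ) * (d : ℝ)) +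
      (g' - g) / ((n : ℝ) * (d : ℝ)) := by ring
  have e4 : m' / (n : ℝ) = m / (n : ℝ) + (m' - m) / (n : ℝ) := by ring
  rw [e3, e4]
  split_ifs with h0 h1 h2 h2
  all_goals rw [abs_le] at *
  all_goals constructor <;> linarith [hg.1, hg.2, hm.1, hm.2, e1.1, e1.2, e2.1, e2.2]

/-! ### one step -/

/-- the stored matrix of sign `b` -/
def S.K (s : S) (b : Bool) : LM := if b then s.2.1 else s.2.2

theorem newK_ap {ε R : ℝ} {K : Mx ℝ} {A : LM} {N M x y : ℕ} {b : Bool} (hx : x < M) (hy : y < M)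
    (hR : 1 ≤ R) (hε : 1 / 2 ^ N ≤ ε) (hs : ε * (60 * R ^ 2) ≤ 1 / 16)
    (hN : 4400000 * R ^ 5 ≤ 2 ^ N)
    (h : ∀ i < M, ∀ j < M, |(get A i j : ℝ) - K i j| ≤ ε)
    (hK : ∀ i < M, ∀ j < M, |K i j| ≤ R) (hD : 1 / 8 ≤ Del (sg b) K x y) :
    ∀ i < M, ∀ j < M, |upd (sg b) K x y i j| ≤ 2200000 * R ^ 5 ∧
      |(get (newK N M b A x y) i j : ℝ) - upd (sg b) K x y i j| ≤ ε * (2200001 * R ^ 5) := by
  intro i hi j hj
  have h2N : (0 : ℝ) < 1 / 2 ^ N := by positivity
  have hε0 : 0 ≤ ε := h2N.le.trans hε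
  have hR2 : 1 ≤ R ^ 2 := one_le_pow₀ hR
  have hR5 : 1 ≤ R ^ 5 := one_le_pow₀ hR
  have hε1 : ε ≤ 1 := by nlinarith
  have h0 : ∀ i < M, ∀ j < M, Ap ε R (K i j) (get A i j : ℝ) := by
    intro i hi j hj
    refine ⟨hK i hi j hj, (h i hi j hj).trans ?_⟩
    nlinarith
  obtain ⟨h3, h4⟩ := Ap.upd (b := b) (L := fun i j => (get A i j : ℝ)) hε0 hε1 hR hx hy h0 hD hs
    hi hj
  refine ⟨h3, ?_⟩
  have h5 : ((upd (sg b : ℚ) (get A) x y i j : ℚ) : ℝ) =
      upd (sg b) (fun i j => (get A i j : ℝ)) x y i j := by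
    rw [upd_cast, sg_cast]
  rw [← h5] at h4
  have h6 : |((upd (sg b : ℚ) (get A) x y i j : ℚ) : ℝ)| ≤ 2 ^ N := by
    have h7 : |((upd (sg b : ℚ) (get A) x y i j : ℚ) : ℝ)| ≤
        |upd (sg b) K x y i j| + ε * (2200000 * R ^ 5) := by
      have e : ((upd (sg b : ℚ) (get A) x y i j : ℚ) : ℝ) = upd (sg b) K x y i j +
        (((upd (sg b : ℚ) (get A) x y i j : ℚ) : ℝ) - upd (sg b) K x y i j) := by ring
      rw [e]
      refine (abs_add_le _ _).trans (add_le_add le_rfl ?_)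
      simpa using h4
    nlinarith
  have h7 := rc_errR h6
  unfold newK
  rw [get_tab hi hj]
  have e : (rc N (upd (sg b) (get A) x y i j) : ℝ) - upd (sg b) K x y i j =
    ((rc N (upd (sg b) (get A) x y i j) : ℝ) - ((upd (sg b : ℚ) (get A) x y i j : ℚ) : ℝ)) +
    (((upd (sg b : ℚ) (get A) x y i j : ℚ) : ℝ) - upd (sg b) K x y i j) := by ring
  rw [e]
  refine (abs_add_le _ _).trans ?_
  nlinarith

/-- robustness of an expression, as a predicate -/
def EAp (a : E) (k : ℕ) : Prop := ∀ (T ε : ℝ), 2 ≤ T → 0 ≤ ε → ε ≤ 1 → ∀ (m r : ℕ),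
    ∀ (e e' : Env ℝ), e.M = e'.M → e.x = e'.x → e.y = e'.y → e.x < e.M → e.y < e.M →
    e.W = e'.W → e.c = e'.c → (e.M : ℝ) ≤ T ^ m → (∀ c : Cst, |e.c c| ≤ T ^ (m * c.deg)) →
    (∀ c : RC, Ap ε (T ^ c.deg) (e.r c) (e'.r c)) →
    (∀ nw b, ∀ i < e.M, ∀ j < e.M, Ap ε (T ^ r) (e.K nw b i j) (e'.K nw b i j)) →
    ∀ i < e.M, ∀ j < e.M, Ap ε (T ^ (k * (m + r + 1))) (eval e a i j) (eval e' a i j)

theorem exists_EAp (a : E) : ∃ k, EAp a k := eval_ap a

theorem EAp.mono {a : E} {k k' : ℕ} (h : EAp a k) (hk : k ≤ k') : EAp a k' := by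
  intro T ε hT h0 h1 m r e e' hM hx hy hxM hyM hW hc hm hcb hg hK i hi j hj
  exact (h T ε hT h0 h1 m r e e' hM hx hy hxM hyM hW hc hm hcb hg hK i hi j hj).mono h0
    (pow_le_pow_right₀ (by linarith) (Nat.mul_le_mul_right _ hk))

theorem exists_EAp_list (cs : List E) : ∃ k, ∀ a ∈ cs, EAp a k := by
  induction cs with
  | nil => exact ⟨0, by simp⟩
  | cons a cs ih =>
    obtain ⟨k, hk⟩ := ih
    obtain ⟨k', hk'⟩ := exists_EAp a
    refine ⟨k + k', ?_⟩
    intro a' ha'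
    rcases List.mem_cons.1 ha' with rfl | ha'
    · exact hk'.mono (by omega)
    · exact (hk a' ha').mono (by omega)

/-! ### the environment of the machine -/

section env

variable {P : Par} {d κ n : ℕ} {s : S} {p : ℕ × ℕ}

/-- the machine environment, cast to the reals -/
noncomputable def envM (d κ n : ℕ) (s : S) (p : ℕ × ℕ) : Env ℝ := (mkEQ d κ n s p).env.cast

theorem envM_W : (envR P d n s.1 p).W = (envM d κ n s p).W := by
  funext nw i
  cases nw <;> rfl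

theorem envM_K (nw b : Bool) (i j : ℕ) : (envM d κ n s p).K nw b i j =
    if nw then (get (newK (bits κ n) (n * d) b (s.K b) p.1 p.2) i j : ℝ)
      else (get (s.K b) i j : ℝ) := by
  cases nw <;> cases b <;> rfl

theorem get_mkEQ (hx : p.1 < n * d) (hy : p.2 < n * d) (a : E) {i j : ℕ} (hi : i < n * d)
    (hj : j < n * d) :
    ((get (evalQ (mkEQ d κ n s p) a) i j : ℚ) : ℝ) = eval (envM d κ n s p) a i j := by
  rw [get_evalQ (mkEQ d κ n s p) hx hy a i hi j hj, eval_cast]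
  rfl

end env

end Crest.Agent.R062.Mach
end

-- ▼ part R062/MachMain
section

/-!
# R62: the machine, main theorem
-/

set_option autoImplicit false

namespace Crest.Agent.R062.Mach

open Crest.Agent.Lib.PT

/-! ### numerical estimates -/

/-- error factor of one step -/
noncomputable def Afac (c n : ℕ) : ℝ := 2200001 * (((n : ℝ) + 2) ^ c) ^ 5

/-- error after `t` steps -/
noncomputable def er (κ c n t : ℕ) : ℝ := 5 * Afac c n ^ t / 2 ^ (bits κ n)

theorem two_le_T (n : ℕ) : (2 : ℝ) ≤ (n : ℝ) + 2 := by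
  have : (0 : ℝ) ≤ n := Nat.cast_nonneg n
  linarith

theorem one_le_R (c n : ℕ) : (1 : ℝ) ≤ ((n : ℝ) + 2) ^ c :=
  one_le_pow₀ (by linarith [two_le_T n])

theorem one_le_Afac (c n : ℕ) : 1 ≤ Afac c n := by
  unfold Afac
  have : (1 : ℝ) ≤ (((n : ℝ) + 2) ^ c) ^ 5 := one_le_pow₀ (one_le_R c n)
  linarith

theorem er_pos (κ c n t : ℕ) : 0 < er κ c n t := by
  unfold er
  have := one_le_Afac c n
  positivity

theorem er_succ (κ c n t : ℕ) : er κ c n (t + 1) = er κ c n t * Afac c n := by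
  unfold er
  rw [pow_succ]; ring

theorem er_le_succ (κ c n t : ℕ) : er κ c n t ≤ er κ c n (t + 1) := by
  rw [er_succ]
  have := one_le_Afac c n
  nlinarith [er_pos κ c n t]

theorem le_er (κ c n t : ℕ) : 1 / 2 ^ (bits κ n) ≤ er κ c n t := by
  unfold er
  have h : 1 ≤ Afac c n ^ t := one_le_pow₀ (one_le_Afac c n)
  refine div_le_div_of_nonneg_right ?_ (by positivity)
  linarith

theorem Afac_le (c n : ℕ) : Afac c n ≤ ((n : ℝ) + 2) ^ (22 + 5 * c) := by
  unfold Afac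
  have h1 : (2 : ℝ) ^ 22 ≤ ((n : ℝ) + 2) ^ 22 := pow_le_pow_left₀ (by norm_num) (two_le_T n) 22
  rw [pow_add, ← pow_mul, mul_comm c 5]
  refine mul_le_mul_of_nonneg_right ?_ (by positivity)
  norm_num at h1 ⊢
  linarith

theorem pow_le_two_pow (n e : ℕ) : ((n : ℝ) + 2) ^ e ≤ 2 ^ ((n + 2) * e) := by
  rw [pow_mul]
  refine pow_le_pow_left₀ (by positivity) ?_ e
  have : n + 2 ≤ 2 ^ (n + 2) := Nat.lt_two_pow_self.le
  exact_mod_cast this

/-- exponents fit into the number of bits -/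
theorem pow_le_bits {κ n e : ℕ} (h : e ≤ κ * (n + 2)) :
    ((n : ℝ) + 2) ^ e ≤ 2 ^ (bits κ n) := by
  refine (pow_le_two_pow n e).trans (pow_le_pow_right₀ (by norm_num) ?_)
  unfold bits
  calc (n + 2) * e ≤ (n + 2) * (κ * (n + 2)) := Nat.mul_le_mul_left _ h
    _ = κ * (n + 2) ^ 2 := by ring

theorem er_le {κ c n d t G : ℕ} (hd : 1 ≤ d) (ht : 2 * t ≤ n * d)
    (hκ : (22 + 5 * c) * d + G + 3 ≤ κ) : er κ c n (t + 1) ≤ 1 / ((n : ℝ) + 2) ^ G := by
  have hT := two_le_T n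
  have hG : (0 : ℝ) < ((n : ℝ) + 2) ^ G := by positivity
  unfold er
  rw [div_le_div_iff₀ (by positivity) hG, one_mul]
  have h1 : Afac c n ^ (t + 1) ≤ ((n : ℝ) + 2) ^ ((22 + 5 * c) * (t + 1)) := by
    rw [pow_mul]
    exact pow_le_pow_left₀ (by linarith [one_le_Afac c n]) (Afac_le c n) _
  have h2 : (5 : ℝ) ≤ ((n : ℝ) + 2) ^ 3 := by
    have : (2 : ℝ) ^ 3 ≤ ((n : ℝ) + 2) ^ 3 := pow_le_pow_left₀ (by norm_num) hT 3
    norm_num at this ⊢
    linarith
  calc 5 * Afac c n ^ (t + 1) * ((n : ℝ) + 2) ^ G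
      ≤ ((n : ℝ) + 2) ^ 3 * ((n : ℝ) + 2) ^ ((22 + 5 * c) * (t + 1)) * ((n : ℝ) + 2) ^ G := by
        refine mul_le_mul_of_nonneg_right ?_ hG.le
        exact mul_le_mul h2 h1 (by have := one_le_Afac c n; positivity) (by positivity)
    _ = ((n : ℝ) + 2) ^ (3 + (22 + 5 * c) * (t + 1) + G) := by rw [pow_add, pow_add]
    _ ≤ 2 ^ (bits κ n) := by
        apply pow_le_bits
        have e1 : t + 1 ≤ d * (n + 2) := by nlinarith
        have e2 : (22 + 5 * c) * (t + 1) ≤ (22 + 5 * c) * (d * (n + 2)) :=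
          Nat.mul_le_mul_left _ e1
        have e3 : ((22 + 5 * c) * d + G + 3) * (n + 2) ≤ κ * (n + 2) :=
          Nat.mul_le_mul_right _ hκ
        nlinarith

theorem size_le (n d : ℕ) : ((n : ℝ) + n * d + 2) ≤ ((n : ℝ) + 2) ^ (d + 2) := by
  have h0 : d + 1 ≤ 2 ^ d := Nat.lt_two_pow_self
  have h1 : ((d : ℝ) + 1) ≤ 2 ^ d := by exact_mod_cast h0
  have h2 : (2 : ℝ) ^ d ≤ ((n : ℝ) + 2) ^ d := pow_le_pow_left₀ (by norm_num) (two_le_T n) d
  have h3 : (0 : ℝ) ≤ n := Nat.cast_nonneg n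
  have h4 : (0 : ℝ) ≤ d := Nat.cast_nonneg d
  have h5 := two_le_T n
  calc ((n : ℝ) + n * d + 2) ≤ ((n : ℝ) + 2) * ((d : ℝ) + 1) := by nlinarith
    _ ≤ ((n : ℝ) + 2) * ((n : ℝ) + 2) ^ d :=
        mul_le_mul_of_nonneg_left (h1.trans h2) (by linarith)
    _ = ((n : ℝ) + 2) ^ (d + 1) := by rw [pow_succ]; ring
    _ ≤ ((n : ℝ) + 2) ^ (d + 2) := pow_le_pow_right₀ (by linarith) (by omega)

/-! ### invariants -/

/-- what is true after `t` steps -/
structure Inv (P : Par) (d κ c n : ℕ) (cs : List E) (t : ℕ) (s : S) : Prop where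
  len : s.1.length = t
  good : Good P d n cs s.1
  err : ∀ b, ∀ i < n * d, ∀ j < n * d,
    |(get (s.K b) i j : ℝ) - P.K d n b s.1 i j| ≤ er κ c n t

/-- the numerical hypotheses at step `t` -/
structure Num (κ c n d t G : ℕ) : Prop where
  small : er κ c n (t + 1) ≤ 1 / ((n : ℝ) + 2) ^ G
  big : 4400000 * (((n : ℝ) + 2) ^ c) ^ 5 ≤ 2 ^ (bits κ n)
  ht : 2 * t ≤ n * d

section step

variable {P : Par} {d κ c n k t : ℕ} {cs : List E} {s : S} {p : ℕ × ℕ}

theorem small60 {G : ℕ} (hN : Num κ c n d t G) (hG : 2 * c + 10 ≤ G) :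
    er κ c n t * (60 * (((n : ℝ) + 2) ^ c) ^ 2) ≤ 1 / 16 := by
  have h1 := (er_le_succ κ c n t).trans hN.small
  have hT := two_le_T n
  have h2 : (960 : ℝ) ≤ ((n : ℝ) + 2) ^ 10 := by
    have : (2 : ℝ) ^ 10 ≤ ((n : ℝ) + 2) ^ 10 := pow_le_pow_left₀ (by norm_num) hT 10
    norm_num at this ⊢
    linarith
  have h3 : 960 * (((n : ℝ) + 2) ^ c) ^ 2 ≤ ((n : ℝ) + 2) ^ G := by
    calc 960 * (((n : ℝ) + 2) ^ c) ^ 2 ≤ ((n : ℝ) + 2) ^ 10 * (((n : ℝ) + 2) ^ c) ^ 2 :=
          mul_le_mul_of_nonneg_right h2 (by positivity)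
      _ = ((n : ℝ) + 2) ^ (2 * c + 10) := by rw [← pow_mul, ← pow_add]; congr 1; ring
      _ ≤ ((n : ℝ) + 2) ^ G := pow_le_pow_right₀ (by linarith) hG
  have hGp : (0 : ℝ) < ((n : ℝ) + 2) ^ G := by positivity
  have h4 : er κ c n t * ((n : ℝ) + 2) ^ G ≤ 1 := by
    calc er κ c n t * ((n : ℝ) + 2) ^ G ≤ 1 / ((n : ℝ) + 2) ^ G * ((n : ℝ) + 2) ^ G :=
          mul_le_mul_of_nonneg_right h1 hGp.le
      _ = 1 := by field_simp
  have h5 : er κ c n t * (960 * (((n : ℝ) + 2) ^ c) ^ 2) ≤ 1 :=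
    (mul_le_mul_of_nonneg_left h3 (er_pos κ c n t).le).trans h4
  nlinarith

/-- the new stored matrices -/
theorem new_err (hI : Inv P d κ c n cs t s) {G : ℕ} (hN : Num κ c n d t G) (hG : 2 * c + 10 ≤ G)
    (hx : p.1 < n * d) (hy : p.2 < n * d)
    (hK : ∀ b, ∀ i < n * d, ∀ j < n * d, |P.K d n b s.1 i j| ≤ ((n : ℝ) + 2) ^ c)
    (hD : ∀ b, 1 / 8 ≤ Del (sg b) (P.K d n b s.1) p.1 p.2) (b : Bool) :
    ∀ i < n * d, ∀ j < n * d,
      |P.K d n b (p :: s.1) i j| ≤ 2200000 * (((n : ℝ) + 2) ^ c) ^ 5 ∧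
      |(get (newK (bits κ n) (n * d) b (s.K b) p.1 p.2) i j : ℝ) - P.K d n b (p :: s.1) i j| ≤
        er κ c n (t + 1) := by
  intro i hi j hj
  have h := newK_ap (b := b) (A := s.K b) (K := P.K d n b s.1) hx hy (one_le_R c n)
    (le_er κ c n t) (small60 hN hG) hN.big (hI.err b) (hK b) (hD b) i hi j hj
  rw [er_succ]
  exact h

/-- the values of the constraints on the stored matrices are good approximations -/
theorem eval_err (hk : ∀ a ∈ cs, EAp a k) (hI : Inv P d κ c n cs t s) {G : ℕ}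
    (hN : Num κ c n d t G) (hG : 2 * c + 10 ≤ G)
    (hG' : k * ((d + 2) + (5 * c + 22) + 1) + c + 1 ≤ G)
    (hx : p.1 < n * d) (hy : p.2 < n * d)
    (hK : ∀ b, ∀ i < n * d, ∀ j < n * d, |P.K d n b s.1 i j| ≤ ((n : ℝ) + 2) ^ c)
    (hD : ∀ b, 1 / 8 ≤ Del (sg b) (P.K d n b s.1) p.1 p.2) :
    ∀ a ∈ cs, ∀ i < n * d, ∀ j < n * d,
      |((get (evalQ (mkEQ d κ n s p) a) i j : ℚ) : ℝ) - eval (envR P d n s.1 p) a i j| ≤
        1 / (2 * ((n : ℝ) + 2) ^ c) := by
  intro a ha i hi j hj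
  rw [get_mkEQ hx hy a hi hj]
  have hT := two_le_T n
  have hT1 : (1 : ℝ) ≤ (n : ℝ) + 2 := by linarith
  have hε0 := (er_pos κ c n (t + 1)).le
  have hε1 : er κ c n (t + 1) ≤ 1 := by
    refine hN.small.trans ?_
    rw [div_le_one (by positivity)]
    exact one_le_pow₀ hT1
  have hr : 2200000 * (((n : ℝ) + 2) ^ c) ^ 5 ≤ ((n : ℝ) + 2) ^ (5 * c + 22) := by
    have h1 := Afac_le c n
    unfold Afac at h1
    have h2 : (0 : ℝ) ≤ (((n : ℝ) + 2) ^ c) ^ 5 := by positivity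
    rw [show 5 * c + 22 = 22 + 5 * c by ring]
    linarith
  have hr' : (1 : ℝ) ≤ ((n : ℝ) + 2) ^ (5 * c + 22) := one_le_pow₀ hT1
  have hM : (((envR P d n s.1 p).M : ℕ) : ℝ) ≤ ((n : ℝ) + 2) ^ (d + 2) := by
    have h1 := size_le n d
    have h2 : (((envR P d n s.1 p).M : ℕ) : ℝ) = (n : ℝ) * d := by
      simp [envR]
    rw [h2]
    have h3 : (0 : ℝ) ≤ n := Nat.cast_nonneg n
    linarith
  have hc : ∀ c : Cst, |(envR P d n s.1 p).c c| ≤ ((n : ℝ) + 2) ^ ((d + 2) * c.deg) := by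
    intro c'
    have h1 := c'.bd n s.1.length
    have h2 : |((c'.f n s.1.length : ℚ) : ℝ)| ≤ ((n : ℝ) + s.1.length + 2) ^ c'.deg := by
      exact_mod_cast (Rat.cast_le (K := ℝ)).2 h1
    refine h2.trans ?_
    rw [pow_mul]
    refine pow_le_pow_left₀ (by positivity) ?_ _
    refine le_trans ?_ (size_le n d)
    have h3 : s.1.length ≤ n * d := by
      rw [hI.len]
      have := hN.ht
      omega
    have h4 : (s.1.length : ℝ) ≤ n * d := by exact_mod_cast h3
    linarith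
  have hRC : ∀ c' : RC, Ap (er κ c n (t + 1)) (((n : ℝ) + 2) ^ c'.deg)
      ((envR P d n s.1 p).r c') ((envM d κ n s p).r c') := by
    intro c'
    refine ⟨c'.bd n, (c'.err n (bits κ n)).trans ?_⟩
    have h1 := le_er κ c n (t + 1)
    have h2 : (1 : ℝ) ≤ ((n : ℝ) + 2) ^ c'.deg := one_le_pow₀ hT1
    nlinarith
  have hKK : ∀ nw b, ∀ i < (envR P d n s.1 p).M, ∀ j < (envR P d n s.1 p).M,
      Ap (er κ c n (t + 1)) (((n : ℝ) + 2) ^ (5 * c + 22)) ((envR P d n s.1 p).K nw b i j)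
        ((envM d κ n s p).K nw b i j) := by
    intro nw b i hi j hj
    rw [envM_K]
    cases nw
    · refine ⟨(hK b i hi j hj).trans (pow_le_pow_right₀ hT1 (by omega)),
        (hI.err b i hi j hj).trans ((er_le_succ κ c n t).trans ?_)⟩
      nlinarith
    · obtain ⟨h1, h2⟩ := new_err hI hN hG hx hy hK hD b i hi j hj
      refine ⟨h1.trans hr, h2.trans ?_⟩
      nlinarith
  have h := hk a ha ((n : ℝ) + 2) (er κ c n (t + 1)) hT hε0 hε1 (d + 2) (5 * c + 22)
    (envR P d n s.1 p) (envM d κ n s p) rfl rfl rfl hx hy envM_W rfl hM hc hRC hKK i hi j hj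
  refine h.2.trans ?_
  have h5 : ((n : ℝ) + 2) ^ (k * ((d + 2) + (5 * c + 22) + 1)) * (2 * ((n : ℝ) + 2) ^ c) ≤
      ((n : ℝ) + 2) ^ G := by
    calc ((n : ℝ) + 2) ^ (k * ((d + 2) + (5 * c + 22) + 1)) * (2 * ((n : ℝ) + 2) ^ c)
        ≤ ((n : ℝ) + 2) ^ (k * ((d + 2) + (5 * c + 22) + 1)) *
          (((n : ℝ) + 2) * ((n : ℝ) + 2) ^ c) := by
          refine mul_le_mul_of_nonneg_left ?_ (by positivity)
          exact mul_le_mul_of_nonneg_right hT (by positivity)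
      _ = ((n : ℝ) + 2) ^ (k * ((d + 2) + (5 * c + 22) + 1) + c + 1) := by
          rw [pow_succ, pow_add]; ring
      _ ≤ ((n : ℝ) + 2) ^ G := pow_le_pow_right₀ hT1 hG'
  have hGp : (0 : ℝ) < ((n : ℝ) + 2) ^ G := by positivity
  rw [le_div_iff₀ (by positivity)]
  calc er κ c n (t + 1) * ((n : ℝ) + 2) ^ (k * ((d + 2) + (5 * c + 22) + 1)) *
        (2 * ((n : ℝ) + 2) ^ c)
      = er κ c n (t + 1) * (((n : ℝ) + 2) ^ (k * ((d + 2) + (5 * c + 22) + 1)) *
        (2 * ((n : ℝ) + 2) ^ c)) := by ring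
    _ ≤ er κ c n (t + 1) * ((n : ℝ) + 2) ^ G := mul_le_mul_of_nonneg_left h5 hε0
    _ ≤ 1 / ((n : ℝ) + 2) ^ G * ((n : ℝ) + 2) ^ G :=
        mul_le_mul_of_nonneg_right hN.small hGp.le
    _ = 1 := by field_simp

/-- the rounded determinants -/
theorem Del_err (hI : Inv P d κ c n cs t s) {G : ℕ} (hN : Num κ c n d t G)
    (hG : 2 * c + 10 ≤ G) (hx : p.1 < n * d) (hy : p.2 < n * d)
    (hK : ∀ b, ∀ i < n * d, ∀ j < n * d, |P.K d n b s.1 i j| ≤ ((n : ℝ) + 2) ^ c) (b : Bool) :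
    |((Del (sg b : ℚ) (get (s.K b)) p.1 p.2 : ℚ) : ℝ) - Del (sg b) (P.K d n b s.1) p.1 p.2| ≤
      1 / 16 := by
  rw [Del_cast, sg_cast]
  have hR := one_le_R c n
  have h60 := small60 hN hG
  have hε0 := (er_pos κ c n t).le
  have hR2 : 1 ≤ (((n : ℝ) + 2) ^ c) ^ 2 := one_le_pow₀ hR
  have hε1 : er κ c n t ≤ 1 := by nlinarith
  have hA : ∀ i < n * d, ∀ j < n * d, Ap (er κ c n t) (((n : ℝ) + 2) ^ c)
      (P.K d n b s.1 i j) (get (s.K b) i j : ℝ) := by
    intro i hi j hj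
    refine ⟨hK b i hi j hj, (hI.err b i hi j hj).trans ?_⟩
    nlinarith
  exact (Ap.Del (b := b) (L := fun i j => (get (s.K b) i j : ℝ)) hε0 hε1 hR
    (hA _ hx _ hx) (hA _ hy _ hy) (hA _ hx _ hy)).2.trans h60

end step

/-! ### the machine follows the specification -/

section main

variable {d : ℕ} (Sp : Spec d)

theorem inv_step {κ n k t : ℕ} {s : S} (hk : ∀ a ∈ Sp.cs, EAp a k)
    (hI : Inv Sp.P d κ Sp.c n Sp.cs t s) {G : ℕ}
    (hN : Num κ Sp.c n d t G) (hG : 2 * Sp.c + 10 ≤ G)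
    (hG' : k * ((d + 2) + (5 * Sp.c + 22) + 1) + Sp.c + 1 ≤ G) (hn : Sp.n0 ≤ n) (he : Even n)
    (ht : t < Sp.T n) :
    Inv Sp.P d κ Sp.c n Sp.cs (t + 1) (step d κ Sp.c n Sp.cs s) := by
  have hlt : s.1.length < Sp.T n := by rw [hI.len]; exact ht
  obtain ⟨p, hp, hH⟩ := Sp.step n hn he s.1 hI.good hlt
  have hR0 : (0 : ℝ) < ((n : ℝ) + 2) ^ Sp.c := by
    have := two_le_T n
    positivity
  have hH0 : Holds Sp.P d n Sp.cs 0 s.1 p := by
    intro a ha i hi j hj
    refine (hH a ha i hi j hj).trans ?_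
    rw [neg_le_neg_iff]
    positivity
  have hK := Sp.bndK n hn he s.1 hI.good hlt p hp hH0
  have hD := Sp.bndD n hn he s.1 hI.good hlt p hp hH0
  -- the test passes for `p`
  have htest : Test d κ Sp.c n Sp.cs s p := by
    have hx := hp.1.1
    have hy := hp.1.2.1
    have hd : ∀ b, (3 / 16 : ℚ) ≤ Del (sg b : ℚ) (get (s.K b)) p.1 p.2 := by
      intro b
      have h1 := (abs_le.1 (Del_err hI hN hG hx hy hK b)).1
      have h2 := hD b
      have h3 : ((3 / 16 : ℚ) : ℝ) ≤ ((Del (sg b : ℚ) (get (s.K b)) p.1 p.2 : ℚ) : ℝ) := by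
        push_cast at *
        linarith
      exact_mod_cast h3
    refine ⟨⟨hd true, hd false⟩, ?_⟩
    intro a ha i hi j hj
    have h1 := (abs_le.1 (eval_err hk hI hN hG hG' hx hy hK
      (fun b => le_trans (by norm_num) (hD b)) a ha i hi j hj)).2
    have h2 := hH a ha i hi j hj
    have h3 : ((get (evalQ (mkEQ d κ n s p) a) i j : ℚ) : ℝ) ≤
        -(1 / (2 * ((n : ℝ) + 2) ^ Sp.c)) := by
      have e : 1 / ((n : ℝ) + 2) ^ Sp.c = 2 * (1 / (2 * ((n : ℝ) + 2) ^ Sp.c)) := by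
        field_simp
      linarith
    have h4 : ((get (evalQ (mkEQ d κ n s p) a) i j : ℚ) : ℝ) *
        (2 * ((n : ℝ) + 2) ^ Sp.c) ≤ -1 := by
      have := mul_le_mul_of_nonneg_right h3
        (show (0 : ℝ) ≤ 2 * ((n : ℝ) + 2) ^ Sp.c by positivity)
      refine this.trans (le_of_eq ?_)
      field_simp
    have h5 : ((get (evalQ (mkEQ d κ n s p) a) i j * (2 * ((n + 2) ^ Sp.c : ℕ)) : ℚ) : ℝ) ≤
        ((-1 : ℚ) : ℝ) := by
      push_cast
      exact h4
    exact_mod_cast h5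
  -- hence the search succeeds
  have hsome : (choice d κ Sp.c n Sp.cs s).isSome := by
    unfold choice
    rw [List.find?_isSome]
    exact ⟨p, mem_cands.2 ⟨hp.1.1, hp.1.2.1⟩, by simpa using ⟨hp, htest⟩⟩
  obtain ⟨p', hp'⟩ := Option.isSome_iff_exists.1 hsome
  have hp'2 : Pairs.Adm d n s.1 p' ∧ Test d κ Sp.c n Sp.cs s p' := by
    have := List.find?_some hp'
    simpa using this
  obtain ⟨hA, ⟨hd1, hd2⟩, hT⟩ := hp'2
  have hx := hA.1.1
  have hy := hA.1.2.1
  have hd : ∀ b, (3 / 16 : ℚ) ≤ Del (sg b : ℚ) (get (s.K b)) p'.1 p'.2 := by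
    intro b
    cases b
    · exact hd2
    · exact hd1
  have hD' : ∀ b, 1 / 8 ≤ Del (sg b) (Sp.P.K d n b s.1) p'.1 p'.2 := by
    intro b
    have h1 := (abs_le.1 (Del_err hI hN hG hx hy hK b)).2
    have h3 : ((3 / 16 : ℚ) : ℝ) ≤ ((Del (sg b : ℚ) (get (s.K b)) p'.1 p'.2 : ℚ) : ℝ) := by
      exact_mod_cast hd b
    have h4 : ((3 / 16 : ℚ) : ℝ) = 3 / 16 := by norm_num
    rw [h4] at h3
    linarith
  have hH' : Holds Sp.P d n Sp.cs 0 s.1 p' := by
    intro a ha i hi j hj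
    have h1 := (abs_le.1 (eval_err hk hI hN hG hG' hx hy hK hD' a ha i hi j hj)).1
    have h5 : ((get (evalQ (mkEQ d κ n s p') a) i j * (2 * ((n + 2) ^ Sp.c : ℕ)) : ℚ) : ℝ) ≤
        ((-1 : ℚ) : ℝ) := by
      exact_mod_cast hT a ha i hi j hj
    push_cast at h5
    have h6 : ((get (evalQ (mkEQ d κ n s p') a) i j : ℚ) : ℝ) ≤
        -(1 / (2 * ((n : ℝ) + 2) ^ Sp.c)) := by
      rw [← neg_div, le_div_iff₀ (by positivity)]
      exact h5
    linarith
  unfold step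
  rw [hp']
  refine ⟨?_, ⟨hI.good, hA, hH'⟩, ?_⟩
  · change (p' :: s.1).length = t + 1
    rw [List.length_cons, hI.len]
  · intro b i hi j hj
    have h := (new_err hI hN hG hx hy hK hD' b i hi j hj).2
    cases b <;> exact h

theorem inv_init {κ c n : ℕ} (P : Par) (cs : List E) (h4 : (4 : ℝ) ≤ bits κ n) :
    Inv P d κ c n cs 0 (init P d κ n) := by
  refine ⟨rfl, trivial, ?_⟩
  intro b i hi j hj
  have h0 : get ((init P d κ n).K b) i j = rc (bits κ n)
      (K0 (P.gam.q n (bits κ n)) (sg b) (P.mu.q n (bits κ n)) n d i j) := by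
    cases b <;> exact get_tab hi hj
  rw [h0]
  set N := bits κ n with hN
  have hN4 : 4 ≤ N := by exact_mod_cast h4
  have h16 : (16 : ℝ) ≤ 2 ^ N := by
    have : (2 : ℝ) ^ 4 ≤ 2 ^ N := pow_le_pow_right₀ (by norm_num) hN4
    norm_num at this
    exact this
  have h1 := K0_err (s := sg b) (P.gam.err n N) (P.mu.err n N) n d i j
  rw [← sg_cast, ← K0_cast] at h1
  have h2 := K0_bd (s := sg b) (P.gam_le n) (abs_sg b).le (P.mu_le n) n d i j
  rw [← sg_cast] at h2
  have h3 : (1 : ℝ) / 2 ^ N ≤ 1 := by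
    rw [div_le_one (by positivity)]
    linarith
  have h5 : |((K0 (P.gam.q n N) (sg b) (P.mu.q n N) n d i j : ℚ) : ℝ)| ≤ 2 ^ N := by
    have e : ((K0 (P.gam.q n N) (sg b) (P.mu.q n N) n d i j : ℚ) : ℝ) =
      K0 (P.gam.v n) ((sg b : ℚ) : ℝ) (P.mu.v n) n d i j +
      (((K0 (P.gam.q n N) (sg b) (P.mu.q n N) n d i j : ℚ) : ℝ) -
        K0 (P.gam.v n) ((sg b : ℚ) : ℝ) (P.mu.v n) n d i j) := by ring
    rw [e]
    refine (abs_add_le _ _).trans ?_
    linarith
  have h6 := rc_errR h5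
  unfold er
  rw [pow_zero, mul_one]
  unfold Par.K Kof init
  simp only
  rw [← sg_cast]
  have e : ((rc N (K0 (P.gam.q n N) (sg b) (P.mu.q n N) n d i j) : ℚ) : ℝ) -
      K0 (P.gam.v n) ((sg b : ℚ) : ℝ) (P.mu.v n) n d i j =
      (((rc N (K0 (P.gam.q n N) (sg b) (P.mu.q n N) n d i j) : ℚ) : ℝ) -
        ((K0 (P.gam.q n N) (sg b) (P.mu.q n N) n d i j : ℚ) : ℝ)) +
      (((K0 (P.gam.q n N) (sg b) (P.mu.q n N) n d i j : ℚ) : ℝ) -
        K0 (P.gam.v n) ((sg b : ℚ) : ℝ) (P.mu.v n) n d i j) := by ring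
  rw [e]
  refine (abs_add_le _ _).trans ?_
  have e5 : (5 : ℝ) / 2 ^ N = 1 / 2 ^ N + 4 * (1 / 2 ^ N) := by ring
  rw [e5]
  exact add_le_add h6 h1

/-- **The machine.** A specification yields a poly-time selector of legal lists of pairs. -/
theorem machine (hd : 1 ≤ d) : ∃ sel : Un → List (ℕ × ℕ), PTF sel ∧
    ∀ n, Sp.n0 ≤ n → Even n →
      Good Sp.P d n Sp.cs (sel ⟨n⟩) ∧ (sel ⟨n⟩).length = Sp.T n := by
  obtain ⟨k, hk⟩ := exists_EAp_list Sp.cs
  obtain ⟨G, hGdef⟩ : ∃ G, G = k * ((d + 2) + (5 * Sp.c + 22) + 1) + 2 * Sp.c + 11 := ⟨_, rfl⟩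
  obtain ⟨κ, hκdef⟩ : ∃ κ, κ = (22 + 5 * Sp.c) * d + G + 3 + (23 + 5 * Sp.c) := ⟨_, rfl⟩
  have hTu : PTU (fun u : Un => Sp.T u.val) := by
    refine PTF.toPTU Sp.T_ptf ?_
    have h1 : PTU (fun u : Un => u.val * d) := PTU.mul (PTU.val PTF.id) (PTU.const d)
    refine PB.mono h1.pb (fun u => ?_)
    have := Sp.T_le u.val
    omega
  refine ⟨fun u => (run Sp.P d κ Sp.c u.val Sp.cs (Sp.T u.val)).1, ?_, ?_⟩
  · have h := ptf_run Sp.P d κ Sp.c Sp.cs (n := fun u : Un => u.val) (t := fun u => Sp.T u.val)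
      (PTU.val PTF.id) hTu
    exact PTF.comp (g := fun s : S => s.1) (by fun_prop) h
  · intro n hn he
    have hinv : ∀ t ≤ Sp.T n, Inv Sp.P d κ Sp.c n Sp.cs t (run Sp.P d κ Sp.c n Sp.cs t) := by
      intro t
      induction t with
      | zero =>
        intro _
        refine inv_init Sp.P Sp.cs ?_
        have h1 : 4 ≤ bits κ n := by
          unfold bits
          have : 1 ≤ (n + 2) ^ 2 := Nat.one_le_pow _ _ (by omega)
          have h2 : 4 ≤ κ := by omega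
          nlinarith
        exact_mod_cast h1
      | succ t ih =>
        intro ht
        have hI := ih (by omega)
        have ht2 : 2 * t ≤ n * d := by
          have := Sp.T_le n
          omega
        have hN : Num κ Sp.c n d t G := by
          refine ⟨er_le hd ht2 (by omega), ?_, ht2⟩
          have h1 := Afac_le Sp.c n
          unfold Afac at h1
          have h2 : (0 : ℝ) ≤ (((n : ℝ) + 2) ^ Sp.c) ^ 5 := by positivity
          have hT := two_le_T n
          have h3 : 4400000 * (((n : ℝ) + 2) ^ Sp.c) ^ 5 ≤ ((n : ℝ) + 2) ^ (23 + 5 * Sp.c) := by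
            have e : ((n : ℝ) + 2) ^ (23 + 5 * Sp.c) =
                ((n : ℝ) + 2) ^ (22 + 5 * Sp.c) * ((n : ℝ) + 2) := by
              rw [← pow_succ]; congr 1; ring
            rw [e]
            nlinarith
          refine h3.trans (pow_le_bits ?_)
          have h4 : 23 + 5 * Sp.c ≤ κ := by omega
          nlinarith
        unfold run at hI ⊢
        rw [Function.iterate_succ_apply']
        exact inv_step Sp hk hI hN (by omega) (by omega) hn he (by omega)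
    have h := hinv (Sp.T n) le_rfl
    exact ⟨h.good, h.len⟩

end main

end Crest.Agent.R062.Mach
end

-- ▼ part R062/MachPar

/-!
# R62: parameters of the process, poly-time constants
-/

set_option autoImplicit false

namespace Crest.Agent.R062.Mach

open Crest.Agent.Lib.PT

/-! ### the constant `1 / √q` -/

/-- `2 ^ N / √q`, rounded down -/
def sQ (q N : ℕ) : ℕ := Nat.sqrt (4 ^ N / q)

theorem sQ_err {q : ℕ} (hq : 1 ≤ q) (N : ℕ) :
    |((mkRat (sQ q N) (2 ^ N) : ℚ) : ℝ) - 1 / Real.sqrt q| ≤ 1 / 2 ^ N := by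
  have hq0 : (0 : ℝ) < q := by exact_mod_cast hq
  have hs0 : 0 < Real.sqrt q := Real.sqrt_pos.2 hq0
  have h2N : (0 : ℝ) < 2 ^ N := by positivity
  have h4 : (4 : ℝ) ^ N = (2 ^ N) ^ 2 := by rw [← pow_mul, mul_comm, pow_mul]; norm_num
  have h1 : sQ q N ^ 2 * q ≤ 4 ^ N :=
    (Nat.mul_le_mul_right q (Nat.sqrt_le' _)).trans (Nat.div_mul_le_self _ _)
  have h2 : 4 ^ N < (sQ q N + 1) ^ 2 * q := by
    have h3 : 4 ^ N / q < (sQ q N + 1) ^ 2 := Nat.lt_succ_sqrt' _
    calc 4 ^ N < q * (4 ^ N / q + 1) := Nat.lt_mul_div_succ _ hq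
      _ = (4 ^ N / q + 1) * q := Nat.mul_comm _ _
      _ ≤ (sQ q N + 1) ^ 2 * q := Nat.mul_le_mul_right q h3
  have h1' : (sQ q N : ℝ) * Real.sqrt q ≤ 2 ^ N := by
    have h3 : ((sQ q N : ℝ)) ^ 2 * q ≤ (4 : ℝ) ^ N := by exact_mod_cast h1
    rw [h4] at h3
    rw [← pow_le_pow_iff_left₀ (by positivity) h2N.le (two_ne_zero), mul_pow,
      Real.sq_sqrt hq0.le]
    exact h3
  have h2' : (2 : ℝ) ^ N < ((sQ q N : ℝ) + 1) * Real.sqrt q := by
    have h3 : (4 : ℝ) ^ N < ((sQ q N : ℝ) + 1) ^ 2 * q := by exact_mod_cast h2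
    rw [h4] at h3
    refine lt_of_pow_lt_pow_left₀ 2 (by positivity) ?_
    rw [mul_pow, Real.sq_sqrt hq0.le]
    exact h3
  rw [Rat.mkRat_eq_div]
  push_cast
  have e : (sQ q N : ℝ) / 2 ^ N - 1 / Real.sqrt q =
      ((sQ q N : ℝ) * Real.sqrt q - 2 ^ N) / Real.sqrt q / 2 ^ N := by
    field_simp
  rw [e, abs_div, abs_of_pos h2N]
  refine div_le_div_of_nonneg_right ?_ h2N.le
  rw [abs_div, abs_of_pos hs0, div_le_one hs0, abs_le]
  constructor
  · linarith
  · linarith [h1']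

/-- the real constant `a n / √q`, `|a n| ≤ 1` -/
noncomputable def RC.divSqrt (q : ℕ) (hq : 1 ≤ q) (a : ℕ → ℚ) (ha : PTF (fun n : Un => a n.val))
    (h1 : ∀ n, |a n| ≤ 1) : RC where
  v n := (a n : ℝ) / Real.sqrt q
  q n N := a n * mkRat (sQ q N) (2 ^ N)
  ptf := by
    have h2 : PTU (fun p : Un × Un => p.2.val) := PTU.val PTF.snd
    refine PTF.ratMul (PTF.comp (g := fun n : Un => a n.val) ha PTF.fst)
      (PTF.ratMk (PTF.intNatCast ?_) (PTF.natPow (PTF.const 2) h2))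
    exact PTF.natSqrt (PTF.natDiv (PTF.natPow (PTF.const 4) h2) (PTF.const q))
  deg := 0
  bd n := by
    have h2 : |(a n : ℝ)| ≤ 1 := by
      have := (Rat.cast_le (K := ℝ)).2 (h1 n)
      push_cast at this
      exact this
    have h3 : (1 : ℝ) ≤ Real.sqrt q := Real.one_le_sqrt.2 (by exact_mod_cast hq)
    rw [pow_zero, abs_div, abs_of_pos (show (0 : ℝ) < Real.sqrt q by linarith)]
    exact (div_le_one (show (0 : ℝ) < Real.sqrt q by linarith)).2 (h2.trans h3)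
  err n N := by
    have h2 : |(a n : ℝ)| ≤ 1 := by
      have := (Rat.cast_le (K := ℝ)).2 (h1 n)
      push_cast at this
      exact this
    have h3 := sQ_err hq N
    have e : ((a n * mkRat (sQ q N) (2 ^ N) : ℚ) : ℝ) - (a n : ℝ) / Real.sqrt q =
        (a n : ℝ) * (((mkRat (sQ q N) (2 ^ N) : ℚ) : ℝ) - 1 / Real.sqrt q) := by
      push_cast
      ring
    rw [e, abs_mul]
    calc |(a n : ℝ)| * |((mkRat (sQ q N) (2 ^ N) : ℚ) : ℝ) - 1 / Real.sqrt q|
        ≤ 1 * (1 / 2 ^ N) := mul_le_mul h2 h3 (abs_nonneg _) zero_le_one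
      _ = 1 / 2 ^ N := one_mul _

/-- data of the parameter `δ` -/
structure Delta where
  /-- the value -/
  f : ℕ → ℚ
  /-- poly-time -/
  ptf : PTF (fun n : Un => f n.val)
  /-- bound -/
  nonneg : ∀ n, 0 ≤ f n
  /-- bound -/
  le_one : ∀ n, f n ≤ 1

/-- `√q · mu` as a rational function of `δ` -/
def muRat (d : ℕ) (δ : ℚ) : ℚ := ((d : ℚ) - 1 - (1 - δ) ^ 2) / ((d : ℚ) - 2 + d * δ)

theorem muRat_bd {d : ℕ} (hd : 3 ≤ d) {δ : ℚ} (h0 : 0 ≤ δ) (h1 : δ ≤ 1) : |muRat d δ| ≤ 1 := by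
  have hd' : (3 : ℚ) ≤ d := by exact_mod_cast hd
  have h2 : 0 < (d : ℚ) - 2 + d * δ := by nlinarith
  unfold muRat
  rw [abs_div, abs_of_pos h2, div_le_one h2, abs_le]
  constructor <;> nlinarith

/-- the parameters `gam = (1-δ)/√q`, `mu = (1-gam²)/(2√q-gam d)`, `q = d - 1` -/
noncomputable def parOf (d : ℕ) (hd : 3 ≤ d) (δ : Delta) : Par where
  gam := RC.divSqrt (d - 1) (by omega) (fun n => 1 - δ.f n)
    (PTF.ratSub (PTF.const 1) δ.ptf)
    (fun n => by
      have h0 := δ.nonneg n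
      have h1 := δ.le_one n
      rw [abs_le]
      constructor <;> linarith)
  mu := RC.divSqrt (d - 1) (by omega) (fun n => muRat d (δ.f n))
    (by
      unfold muRat
      exact PTF.ratDiv (PTF.ratSub (PTF.const _) (PTF.ratPowConst
        (PTF.ratSub (PTF.const 1) δ.ptf) 2)) (PTF.ratAdd (PTF.const _)
          (PTF.ratMul (PTF.const _) δ.ptf)))
    (fun n => muRat_bd hd (δ.nonneg n) (δ.le_one n))
  gam_le n := by
    have := RC.bd (RC.divSqrt (d - 1) (by omega) (fun n => 1 - δ.f n)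
      (PTF.ratSub (PTF.const 1) δ.ptf)
      (fun n => by
        have h0 := δ.nonneg n
        have h1 := δ.le_one n
        rw [abs_le]
        constructor <;> linarith)) n
    simpa [RC.divSqrt] using this
  mu_le n := by
    have := RC.bd (RC.divSqrt (d - 1) (by omega) (fun n => muRat d (δ.f n))
      (by
        unfold muRat
        exact PTF.ratDiv (PTF.ratSub (PTF.const _) (PTF.ratPowConst
          (PTF.ratSub (PTF.const 1) δ.ptf) 2)) (PTF.ratAdd (PTF.const _)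
            (PTF.ratMul (PTF.const _) δ.ptf)))
      (fun n => muRat_bd hd (δ.nonneg n) (δ.le_one n))) n
    simpa [RC.divSqrt] using this

theorem cast_pred {d : ℕ} (hd : 3 ≤ d) : ((d - 1 : ℕ) : ℝ) = (d : ℝ) - 1 := by
  rw [Nat.cast_sub (by omega)]; simp

theorem parOf_gam (d : ℕ) (hd : 3 ≤ d) (δ : Delta) (n : ℕ) :
    (parOf d hd δ).gam.v n = R62.Start.gam d (δ.f n : ℝ) := by
  change ((1 - δ.f n : ℚ) : ℝ) / Real.sqrt ((d - 1 : ℕ) : ℝ) = _
  rw [cast_pred hd]
  unfold R62.Start.gam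
  push_cast
  rfl

theorem parOf_mu (d : ℕ) (hd : 3 ≤ d) (δ : Delta) (n : ℕ) :
    (parOf d hd δ).mu.v n = R62.Start.muOf d ((parOf d hd δ).gam.v n) := by
  rw [parOf_gam]
  change ((muRat d (δ.f n) : ℚ) : ℝ) / Real.sqrt ((d - 1 : ℕ) : ℝ) = _
  rw [cast_pred hd]
  unfold R62.Start.muOf R62.Start.gam muRat
  have hd' : (3 : ℝ) ≤ d := by exact_mod_cast hd
  have h0 : (0 : ℝ) ≤ δ.f n := by exact_mod_cast δ.nonneg n
  have hs : 0 < Real.sqrt ((d : ℝ) - 1) := Real.sqrt_pos.2 (by linarith)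
  have hs2 : Real.sqrt ((d : ℝ) - 1) ^ 2 = (d : ℝ) - 1 := Real.sq_sqrt (by linarith)
  have h2 : 0 < (d : ℝ) - 2 + d * δ.f n := by nlinarith
  push_cast
  generalize Real.sqrt ((d : ℝ) - 1) = q at *
  have hd2 : (d : ℝ) = q ^ 2 + 1 := by linarith
  have h3 : 2 * q - (1 - (δ.f n : ℝ)) / q * d = ((d : ℝ) - 2 + d * δ.f n) / q := by
    field_simp
    rw [hd2]
    ring
  rw [h3]
  have h4 : 1 - ((1 - (δ.f n : ℝ)) / q) ^ 2 = ((d : ℝ) - 1 - (1 - δ.f n) ^ 2) / q ^ 2 := by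
    field_simp
    rw [hd2]
    ring
  rw [h4]
  field_simp

theorem parOf_ok {d : ℕ} (hd : 3 ≤ d) (δ : Delta) (n : ℕ) (h : δ.f n < 1) :
    0 < (parOf d hd δ).gam.v n ∧ (parOf d hd δ).gam.v n < 1 ∧
      0 < 2 * Real.sqrt ((d : ℝ) - 1) - (parOf d hd δ).gam.v n * d := by
  rw [parOf_gam]
  unfold R62.Start.gam
  have hd' : (3 : ℝ) ≤ d := by exact_mod_cast hd
  have h0 : (0 : ℝ) ≤ δ.f n := by exact_mod_cast δ.nonneg n
  have h1 : (δ.f n : ℝ) < 1 := by exact_mod_cast h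
  have hs : 1 < Real.sqrt ((d : ℝ) - 1) := by
    rw [Real.lt_sqrt (by norm_num)]
    linarith
  have hs2 : Real.sqrt ((d : ℝ) - 1) ^ 2 = (d : ℝ) - 1 := Real.sq_sqrt (by linarith)
  generalize Real.sqrt ((d : ℝ) - 1) = q at *
  have hq0 : 0 < q := by linarith
  have hd2 : (d : ℝ) = q ^ 2 + 1 := by linarith
  refine ⟨div_pos (by linarith) hq0, ?_, ?_⟩
  · rw [div_lt_one hq0]
    linarith
  · have h3 : 2 * q - (1 - (δ.f n : ℝ)) / q * d = ((d : ℝ) - 2 + d * δ.f n) / q := by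
      field_simp
      rw [hd2]
      ring
    rw [h3]
    have h2 : 0 < (d : ℝ) - 2 + d * δ.f n := by nlinarith
    positivity

/-! ### roots and the toolkit of constants -/

/-- `⌊n^(1/k)⌋` is poly-time -/
theorem ptu_root {γ : Type} [PTCode γ] (k : ℕ) (hk : k ≠ 0) {n : γ → ℕ} (hn : PTU n) :
    PTU (fun c => Nat.nthRoot k (n c)) := by
  have hle : ∀ m, Nat.nthRoot k m ≤ m := by
    intro m
    have h1 := Nat.pow_nthRoot_le (n := k) (a := m) (Or.inl hk)
    exact (Nat.le_self_pow hk _).trans h1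
  refine PTF.toPTU ?_ (PB.mono hn.pb (fun c => hle _))
  refine Arith.ptf_of_le (K := n) ?_ hn (fun c => (hle _).trans_lt Nat.lt_two_pow_self)
  refine PTPred.of_iff (p := fun p : γ × ℕ => p.2 ^ k ≤ n p.1) ?_ (fun p => ?_)
  · exact PTPred.natLe (PTF.natPowConst PTF.snd k) (PTF.comp (PTU.toPTF hn) PTF.fst)
  · exact (Nat.le_nthRoot_iff hk).symm

/-- `δ = ⌊n^(1/k)⌋^(-a)` -/
def Delta.root (k : ℕ) (hk : k ≠ 0) (a : ℕ) : Delta where
  f n := ((Nat.nthRoot k n : ℚ) ^ a)⁻¹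
  ptf := PTF.ratInv (PTF.ratPowConst (PTF.ratNatCast
    (PTU.toPTF (ptu_root k hk (PTU.val PTF.id)))) a)
  nonneg n := by positivity
  le_one n := by
    rcases Nat.eq_zero_or_pos (Nat.nthRoot k n) with h | h
    · rw [h]
      rcases Nat.eq_zero_or_pos a with h' | h'
      · simp [h']
      · rw [Nat.cast_zero, zero_pow (by omega), inv_zero]
        norm_num
    · exact inv_le_one_of_one_le₀ (one_le_pow₀ (by exact_mod_cast h))

@[simp] theorem Delta.root_f (k : ℕ) (hk : k ≠ 0) (a n : ℕ) :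
    (Delta.root k hk a).f n = ((Nat.nthRoot k n : ℚ) ^ a)⁻¹ := rfl

namespace Cst

theorem one_le (n t : ℕ) : (1 : ℚ) ≤ (n : ℚ) + t + 2 := by
  have h1 : (0 : ℚ) ≤ n := Nat.cast_nonneg n
  have h2 : (0 : ℚ) ≤ t := Nat.cast_nonneg t
  linarith

/-- a constant -/
def const (r : ℚ) : Cst where
  f _ _ := r
  ptf := PTF.const r
  deg := ⌈|r|⌉₊
  bd n t := by
    have h1 : |r| ≤ (⌈|r|⌉₊ : ℚ) := Nat.le_ceil _
    have h2 : (⌈|r|⌉₊ : ℚ) ≤ 2 ^ ⌈|r|⌉₊ := by
      exact_mod_cast (Nat.lt_two_pow_self (n := ⌈|r|⌉₊)).le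
    refine h1.trans (h2.trans (pow_le_pow_left₀ (by norm_num) ?_ _))
    have h1 : (0 : ℚ) ≤ n := Nat.cast_nonneg n
    have h2 : (0 : ℚ) ≤ t := Nat.cast_nonneg t
    linarith

/-- sum -/
def add (a b : Cst) : Cst where
  f n t := a.f n t + b.f n t
  ptf := PTF.ratAdd a.ptf b.ptf
  deg := a.deg + b.deg + 1
  bd n t := by
    have h1 := one_le n t
    have h2 : (1 : ℚ) + 1 ≤ (n : ℚ) + t + 2 := by
      have h1 : (0 : ℚ) ≤ n := Nat.cast_nonneg n
      have h2 : (0 : ℚ) ≤ t := Nat.cast_nonneg t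
      linarith
    have h3 : ((n : ℚ) + t + 2) ^ a.deg ≤ ((n : ℚ) + t + 2) ^ (a.deg + b.deg) :=
      pow_le_pow_right₀ h1 (by omega)
    have h4 : ((n : ℚ) + t + 2) ^ b.deg ≤ ((n : ℚ) + t + 2) ^ (a.deg + b.deg) :=
      pow_le_pow_right₀ h1 (by omega)
    have h5 : (0 : ℚ) ≤ ((n : ℚ) + t + 2) ^ (a.deg + b.deg) := by positivity
    refine (abs_add_le _ _).trans ((add_le_add ((a.bd n t).trans h3) ((b.bd n t).trans h4)).trans ?_)
    rw [pow_succ]
    nlinarith

/-- product -/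
def mul (a b : Cst) : Cst where
  f n t := a.f n t * b.f n t
  ptf := PTF.ratMul a.ptf b.ptf
  deg := a.deg + b.deg
  bd n t := by
    have h1 := one_le n t
    rw [abs_mul, pow_add]
    exact mul_le_mul (a.bd n t) (b.bd n t) (abs_nonneg _) (by positivity)

/-- negation -/
def neg (a : Cst) : Cst where
  f n t := -a.f n t
  ptf := PTF.ratNeg a.ptf
  deg := a.deg
  bd n t := by rw [abs_neg]; exact a.bd n t

/-- difference -/
def sub (a b : Cst) : Cst := add a (neg b)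

/-- natural power -/
def pow (a : Cst) (k : ℕ) : Cst where
  f n t := a.f n t ^ k
  ptf := PTF.ratPowConst a.ptf k
  deg := a.deg * k
  bd n t := by
    rw [abs_pow, pow_mul]
    exact pow_le_pow_left₀ (abs_nonneg _) (a.bd n t) k

/-- inverse, with a polynomial lower bound -/
def inv (a : Cst) (e : ℕ) (h : ∀ n t, a.f n t = 0 ∨ 1 ≤ |a.f n t| * ((n : ℚ) + t + 2) ^ e) :
    Cst where
  f n t := (a.f n t)⁻¹
  ptf := PTF.ratInv a.ptf
  deg := e
  bd n t := by
    have h1 := one_le n t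
    rcases h n t with h0 | h0
    · rw [h0, inv_zero, abs_zero]
      positivity
    · have h2 : 0 < |a.f n t| := by
        by_contra hc
        have : |a.f n t| = 0 := le_antisymm (not_lt.1 hc) (abs_nonneg _)
        rw [this, zero_mul] at h0
        linarith
      rw [abs_inv, inv_le_iff_one_le_mul₀ h2, mul_comm]
      exact h0

/-- maximum -/
def max (a b : Cst) : Cst where
  f n t := Max.max (a.f n t) (b.f n t)
  ptf := ptf_max a.ptf b.ptf
  deg := a.deg + b.deg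
  bd n t := by
    have h1 := one_le n t
    refine abs_max_le_max_abs_abs.trans (max_le ?_ ?_)
    · exact (a.bd n t).trans (pow_le_pow_right₀ h1 (by omega))
    · exact (b.bd n t).trans (pow_le_pow_right₀ h1 (by omega))

/-- case distinction `a ≤ b` -/
def ite (a b u v : Cst) : Cst where
  f n t := if a.f n t ≤ b.f n t then u.f n t else v.f n t
  ptf := PTF.ite (PTPred.ratLe a.ptf b.ptf) u.ptf v.ptf
  deg := u.deg + v.deg
  bd n t := by
    have h1 := one_le n t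
    split_ifs
    · exact (u.bd n t).trans (pow_le_pow_right₀ h1 (by omega))
    · exact (v.bd n t).trans (pow_le_pow_right₀ h1 (by omega))

/-- natural-number valued constants -/
def ofNat (g : ℕ → ℕ → ℕ) (hg : PTF (fun p : Un × Un => g p.1.val p.2.val)) (deg : ℕ)
    (h : ∀ n t, g n t ≤ (n + t + 2) ^ deg) : Cst where
  f n t := (g n t : ℚ)
  ptf := PTF.ratNatCast hg
  deg := deg
  bd n t := by
    rw [Nat.abs_cast]
    exact_mod_cast h n t

/-- `n` -/
def n : Cst := ofNat (fun n _ => n) (PTU.toPTF (PTU.val PTF.fst)) 1 (fun n t => by simp; omega)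

/-- `t` -/
def t : Cst := ofNat (fun _ t => t) (PTU.toPTF (PTU.val PTF.snd)) 1 (fun n t => by simp; omega)

/-- the number of free stubs -/
def free (d : ℕ) : Cst := sub (mul n (const d)) (mul (const 2) t)

/-- `⌊n^(1/k)⌋` -/
def root (k : ℕ) (hk : k ≠ 0) : Cst := ofNat (fun n _ => Nat.nthRoot k n)
  (PTU.toPTF (ptu_root k hk (PTU.val PTF.fst))) 1 (fun n t => by
    have h1 := Nat.pow_nthRoot_le (n := k) (a := n) (Or.inl hk)
    have h2 := (Nat.le_self_pow hk _).trans h1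
    rw [pow_one]
    omega)

@[simp] theorem const_f (r : ℚ) (n t : ℕ) : (const r).f n t = r := rfl
@[simp] theorem add_f (a b : Cst) (n t : ℕ) : (add a b).f n t = a.f n t + b.f n t := rfl
@[simp] theorem mul_f (a b : Cst) (n t : ℕ) : (mul a b).f n t = a.f n t * b.f n t := rfl
@[simp] theorem neg_f (a : Cst) (n t : ℕ) : (neg a).f n t = -a.f n t := rfl
@[simp] theorem sub_f (a b : Cst) (n t : ℕ) : (sub a b).f n t = a.f n t - b.f n t :=
  (sub_eq_add_neg _ _).symm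
@[simp] theorem pow_f (a : Cst) (k n t : ℕ) : (pow a k).f n t = a.f n t ^ k := rfl
@[simp] theorem inv_f (a : Cst) (e : ℕ) (h) (n t : ℕ) : (inv a e h).f n t = (a.f n t)⁻¹ := rfl
@[simp] theorem max_f (a b : Cst) (n t : ℕ) :
    (max a b).f n t = Max.max (a.f n t) (b.f n t) := rfl
@[simp] theorem ite_f (a b u v : Cst) (n t : ℕ) :
    (ite a b u v).f n t = if a.f n t ≤ b.f n t then u.f n t else v.f n t := rfl
@[simp] theorem n_f (n t : ℕ) : Cst.n.f n t = n := rfl
@[simp] theorem t_f (n t : ℕ) : Cst.t.f n t = t := rfl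
@[simp] theorem free_f (d n t : ℕ) : (free d).f n t = n * d - 2 * t := by
  unfold free
  simp
@[simp] theorem root_f (k : ℕ) (hk : k ≠ 0) (n t : ℕ) :
    (root k hk).f n t = (Nat.nthRoot k n : ℚ) := rfl

end Cst

end Crest.Agent.R062.Mach
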